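import Vale.Agent.P196.H798.Spin
import Mathlib.GroupTheory.NoncommPiCoprod
import Mathlib.GroupTheory.Commutator.Basic

/-!
Kernel bound for lifts of products of alternating groups to central extensions
(block S2-PROD of P196).
-/

namespace Vale.Agent.P196.H798

open Subgroup Equiv Equiv.Perm
open scoped commutatorElement

section Comm

variable {E A : Type*} [Group E] [Group A] (π : E →* A) (hker : π.ker ≤ center E)

include hker in
/-- Commutators in a central extension only depend on the images. -/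
theorem comm_eq_of_map_eq {g g' h h' : E} (hg : π g = π g') (hh : π h = π h') :
    ⁅g, h⁆ = ⁅g', h'⁆ := by
  obtain ⟨z, hz', rfl⟩ : ∃ z, π z = 1 ∧ g = g' * z :=
    ⟨g'⁻¹ * g, by rw [map_mul, map_inv, hg, inv_mul_cancel], by group⟩
  obtain ⟨w, hw', rfl⟩ : ∃ w, π w = 1 ∧ h = h' * w :=
    ⟨h'⁻¹ * h, by rw [map_mul, map_inv, hh, inv_mul_cancel], by group⟩
  have hz : ∀ x, z * x = x * z := fun x =>
    (mem_center_iff.1 (hker (MonoidHom.mem_ker.2 hz')) x).symm
  have hw : ∀ x, w * x = x * w := fun x =>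
    (mem_center_iff.1 (hker (MonoidHom.mem_ker.2 hw')) x).symm
  rw [commutatorElement_def, commutatorElement_def]
  calc g' * z * (h' * w) * (g' * z)⁻¹ * (h' * w)⁻¹
      = g' * (z * (h' * w)) * (z⁻¹ * g'⁻¹) * (w⁻¹ * h'⁻¹) := by group
    _ = g' * (h' * w) * (z * z⁻¹) * g'⁻¹ * (w⁻¹ * h'⁻¹) := by rw [hz]; simp only [mul_assoc]
    _ = g' * h' * (w * g'⁻¹) * w⁻¹ * h'⁻¹ := by
        rw [mul_inv_cancel, mul_one]; simp only [mul_assoc]
    _ = g' * h' * g'⁻¹ * h'⁻¹ := by rw [hw]; simp only [mul_assoc, mul_inv_cancel_left]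

include hker in
/-- If `π g₁`, `π g₂` commute with `π x` then `[g₁, g₂]` commutes with `x`. -/
theorem comm_commute {g₁ g₂ x : E} (h1 : π g₁ * π x = π x * π g₁)
    (h2 : π g₂ * π x = π x * π g₂) : ⁅g₁, g₂⁆ * x = x * ⁅g₁, g₂⁆ := by
  have e1 : π (x * g₁ * x⁻¹) = π g₁ := by
    rw [map_mul, map_mul, map_inv, ← h1, mul_inv_cancel_right]
  have e2 : π (x * g₂ * x⁻¹) = π g₂ := by
    rw [map_mul, map_mul, map_inv, ← h2, mul_inv_cancel_right]
  have h := comm_eq_of_map_eq π hker e1 e2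
  have h' : ⁅x * g₁ * x⁻¹, x * g₂ * x⁻¹⁆ = x * ⁅g₁, g₂⁆ * x⁻¹ := by
    rw [commutatorElement_def, commutatorElement_def]; group
  rw [h', mul_inv_eq_iff_eq_mul] at h
  exact h.symm

variable (hs : Function.Surjective π)

/-- The commutator of arbitrary lifts. -/
noncomputable def cm (σ τ : A) : E := ⁅(hs σ).choose, (hs τ).choose⁆

theorem map_cm (σ τ : A) : π (cm π hs σ τ) = ⁅σ, τ⁆ := by
  rw [cm, map_commutatorElement, (hs σ).choose_spec, (hs τ).choose_spec]

include hker in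
theorem comm_eq_cm (g h : E) : ⁅g, h⁆ = cm π hs (π g) (π h) :=
  comm_eq_of_map_eq π hker (hs (π g)).choose_spec.symm (hs (π h)).choose_spec.symm

include hker in
theorem conj_cm (g : E) (σ τ : A) :
    g * cm π hs σ τ * g⁻¹ = cm π hs (π g * σ * (π g)⁻¹) (π g * τ * (π g)⁻¹) := by
  have h : ∀ x y : E, g * ⁅x, y⁆ * g⁻¹ = ⁅g * x * g⁻¹, g * y * g⁻¹⁆ := by
    intro x y
    rw [commutatorElement_def, commutatorElement_def]; group
  rw [cm, h, comm_eq_cm π hker hs]
  simp only [map_mul, map_inv, (hs σ).choose_spec, (hs τ).choose_spec]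

theorem cm_inv (σ τ : A) : (cm π hs σ τ)⁻¹ = cm π hs τ σ := commutatorElement_inv _ _

end Comm

section Fam

variable {M : Type*} [DecidableEq M] [Fintype M]

theorem exists_notMem_list (L : List M) (h : L.length < Fintype.card M) : ∃ x, x ∉ L := by
  by_contra hcon
  push Not at hcon
  have : (Finset.univ : Finset M) ⊆ L.toFinset := fun x _ => List.mem_toFinset.2 (hcon x)
  have h2 := (Finset.card_le_card this).trans (List.toFinset_card_le L)
  rw [Finset.card_univ] at h2
  omega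

/-- `[C a b p, C a c q] = C a b c`. -/
theorem C_comm {a b c p q : M} (h : [a, b, c, p, q].Nodup) : ⁅C a b p, C a c q⁆ = C a b c := by
  simp only [List.nodup_cons, List.mem_cons, List.not_mem_nil, or_false, not_or,
    List.nodup_nil, not_false_eq_true, and_true] at h
  obtain ⟨⟨hab, hac, hap, haq⟩, ⟨hbc, hbp, hbq⟩, ⟨hcp, hcq⟩, hpq⟩ := h
  rw [commutatorElement_def, C_conj hac hcq (C a b p), ← C_inv hac haq hcq, coe_C hab hbp,
    c3_apply_left hap hab, c3_apply_of_ne (Ne.symm hac) (Ne.symm hbc) hcp,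
    c3_apply_of_ne (Ne.symm haq) (Ne.symm hbq) (Ne.symm hpq),
    C_rotate (a := q) (Ne.symm hbq) (Ne.symm hcq) hbc,
    ← C_rotate (a := a) haq hac (Ne.symm hcq),
    C_R (Ne.symm hbq) (Ne.symm hcq) (Ne.symm haq) hbc (Ne.symm hab) (Ne.symm hac),
    C_rotate hab hac hbc]

theorem C_commute {a b c p q r : M} (h : [a, b, c, p, q, r].Nodup) :
    C p q r * C a b c = C a b c * C p q r := by
  simp only [List.nodup_cons, List.mem_cons, List.not_mem_nil, or_false, not_or,
    List.nodup_nil, not_false_eq_true, and_true] at h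
  obtain ⟨⟨hab, hac, hap, haq, har⟩, ⟨hbc, hbp, hbq, hbr⟩, ⟨hcp, hcq, hcr⟩, ⟨hpq, hpr⟩, hqr⟩ := h
  rw [← mul_inv_eq_iff_eq_mul, C_conj hab hbc, coe_C hpq hqr, c3_apply_of_ne hap haq har,
    c3_apply_of_ne hbp hbq hbr, c3_apply_of_ne hcp hcq hcr]

variable {E A : Type*} [Group E] [Group A] (π : E →* A) (hker : π.ker ≤ center E)
  (hs : Function.Surjective π) (j : alternatingGroup M →* A)

/-- Lift of `C a b c` through the commutator `[C a b p, C a c q]`. -/
noncomputable def T0 (a b c p q : M) : E := cm π hs (j (C a b p)) (j (C a c q))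

theorem map_T0 {a b c p q : M} (h : [a, b, c, p, q].Nodup) :
    π (T0 π hs j a b c p q) = j (C a b c) := by
  rw [T0, map_cm, ← map_commutatorElement, C_comm h]

theorem T0_inv (a b c p q : M) : (T0 π hs j a b c p q)⁻¹ = T0 π hs j a c b q p :=
  cm_inv π hs _ _

include hker in
theorem conj_T0 {g : E} {σ : alternatingGroup M} (hg : π g = j σ) {a b c p q : M}
    (h : [a, b, c, p, q].Nodup) :
    g * T0 π hs j a b c p q * g⁻¹ = T0 π hs j ((σ : Perm M) a) ((σ : Perm M) b)
      ((σ : Perm M) c) ((σ : Perm M) p) ((σ : Perm M) q) := by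
  simp only [List.nodup_cons, List.mem_cons, List.not_mem_nil, or_false, not_or,
    List.nodup_nil, not_false_eq_true, and_true] at h
  obtain ⟨⟨hab, hac, hap, haq⟩, ⟨hbc, hbp, hbq⟩, ⟨hcp, hcq⟩, hpq⟩ := h
  rw [T0, conj_cm π hker hs, hg, ← map_inv, ← map_mul, ← map_mul, ← map_mul, ← map_mul,
    C_conj hab hbp, C_conj hac hcq, T0]

include hker in
theorem T0_indep_p (hM : 8 ≤ Fintype.card M) {a b c p p' q : M}
    (h : [a, b, c, p, q].Nodup) (h' : [a, b, c, p', q].Nodup) :
    T0 π hs j a b c p q = T0 π hs j a b c p' q := by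
  by_cases hpp : p = p'
  · rw [hpp]
  obtain ⟨r, hr⟩ := exists_notMem_list [a, b, c, p, p', q] (by simp; omega)
  obtain ⟨v, hv⟩ := exists_notMem_list [a, b, c, p, p', q, r] (by simp; omega)
  have hh := h
  simp only [List.nodup_cons, List.mem_cons, List.not_mem_nil, or_false, not_or,
    List.nodup_nil, not_false_eq_true, and_true] at hh h' hr hv
  obtain ⟨⟨hab, hac, hap, haq⟩, ⟨hbc, hbp, hbq⟩, ⟨hcp, hcq⟩, hpq⟩ := hh
  obtain ⟨⟨-, -, hap', -⟩, ⟨-, hbp', -⟩, ⟨hcp', -⟩, hp'q⟩ := h'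
  obtain ⟨hra, hrb, hrc, hrp, hrp', hrq⟩ := hr
  obtain ⟨hva, hvb, hvc, hvp, hvp', hvq, hvr⟩ := hv
  -- the commutator realising `C p p' r`
  set k := cm π hs (j (C p p' q)) (j (C p r v)) with hk
  have hkπ : π k = j (C p p' r) := by
    rw [hk, map_cm, ← map_commutatorElement, C_comm]
    simp [hpp, hpq, hp'q, Ne.symm hrp, Ne.symm hvp, Ne.symm hrp', Ne.symm hvp', hrq,
      Ne.symm hvq, Ne.symm hvr]
  have hcomm : k * T0 π hs j a b c p q = T0 π hs j a b c p q * k := by
    rw [hk, cm]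
    refine comm_commute π hker ?_ ?_
    · rw [(hs _).choose_spec, map_T0 π hs j h, ← map_mul, ← map_mul, C_commute]
      simp [hab, hac, hap, haq, hap', hbc, hbp, hbp', hbq, hcp, hcp', hcq, hpp, hpq, hp'q]
    · rw [(hs _).choose_spec, map_T0 π hs j h, ← map_mul, ← map_mul, C_commute]
      simp [hab, hac, hap, hbc, hbp, hcp, Ne.symm hra, Ne.symm hrb, Ne.symm hrc, Ne.symm hrp,
        Ne.symm hva, Ne.symm hvb, Ne.symm hvc, Ne.symm hvp, Ne.symm hvr]
  have hconj := conj_T0 π hker hs j hkπ h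
  rw [coe_C hpp (Ne.symm hrp'), c3_apply_of_ne hap hap' (Ne.symm hra),
    c3_apply_of_ne hbp hbp' (Ne.symm hrb), c3_apply_of_ne hcp hcp' (Ne.symm hrc),
    c3_apply_left (Ne.symm hrp) hpp, c3_apply_of_ne (Ne.symm hpq) (Ne.symm hp'q) (Ne.symm hrq),
    hcomm, mul_inv_cancel_right] at hconj
  exact hconj

include hker in
theorem T0_indep_q (hM : 8 ≤ Fintype.card M) {a b c p q q' : M}
    (h : [a, b, c, p, q].Nodup) (h' : [a, b, c, p, q'].Nodup) :
    T0 π hs j a b c p q = T0 π hs j a b c p q' := by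
  have e : ∀ {x : M}, [a, b, c, p, x].Nodup → [a, c, b, x, p].Nodup := by
    intro x hx
    simp only [List.nodup_cons, List.mem_cons, List.not_mem_nil, or_false, not_or,
      List.nodup_nil, not_false_eq_true, and_true] at hx ⊢
    obtain ⟨⟨hab, hac, hap, haq⟩, ⟨hbc, hbp, hbq⟩, ⟨hcp, hcq⟩, hpq⟩ := hx
    exact ⟨⟨hac, hab, haq, hap⟩, ⟨Ne.symm hbc, hcq, hcp⟩, ⟨hbq, hbp⟩, Ne.symm hpq⟩
  have h1 := T0_indep_p π hker hs j hM (e h) (e h')
  rw [← T0_inv, ← T0_inv π hs j a b c p q', inv_inj] at h1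
  exact h1

include hker in
theorem T0_indep (hM : 8 ≤ Fintype.card M) {a b c p q p' q' : M}
    (h : [a, b, c, p, q].Nodup) (h' : [a, b, c, p', q'].Nodup) :
    T0 π hs j a b c p q = T0 π hs j a b c p' q' := by
  obtain ⟨r, hr⟩ := exists_notMem_list [a, b, c, q, q'] (by simp; omega)
  have hh := h
  have hh' := h'
  simp only [List.nodup_cons, List.mem_cons, List.not_mem_nil, or_false, not_or,
    List.nodup_nil, not_false_eq_true, and_true] at hh hh' hr
  obtain ⟨⟨hab, hac, hap, haq⟩, ⟨hbc, hbp, hbq⟩, ⟨hcp, hcq⟩, hpq⟩ := hh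
  obtain ⟨⟨-, -, hap', haq'⟩, ⟨-, hbp', hbq'⟩, ⟨hcp', hcq'⟩, hp'q'⟩ := hh'
  obtain ⟨hra, hrb, hrc, hrq, hrq'⟩ := hr
  have h1 : [a, b, c, r, q].Nodup := by
    simp [hab, hac, haq, hbc, hbq, hcq, Ne.symm hra, Ne.symm hrb, Ne.symm hrc, hrq]
  have h2 : [a, b, c, r, q'].Nodup := by
    simp [hab, hac, haq', hbc, hbq', hcq', Ne.symm hra, Ne.symm hrb, Ne.symm hrc, hrq']
  rw [T0_indep_p π hker hs j hM h h1, T0_indep_q π hker hs j hM h1 h2,
    T0_indep_p π hker hs j hM h2 h']

open Classical in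
/-- The canonical lift of the 3-cycle `C a b c`. -/
noncomputable def Tf (a b c : M) : E :=
  if h : ∃ pq : M × M, [a, b, c, pq.1, pq.2].Nodup then T0 π hs j a b c h.choose.1 h.choose.2
  else 1

include hker in
theorem Tf_eq (hM : 8 ≤ Fintype.card M) {a b c p q : M} (h : [a, b, c, p, q].Nodup) :
    Tf π hs j a b c = T0 π hs j a b c p q := by
  have hex : ∃ pq : M × M, [a, b, c, pq.1, pq.2].Nodup := ⟨(p, q), h⟩
  rw [Tf, dif_pos hex]
  exact T0_indep π hker hs j hM hex.choose_spec h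

theorem exists_nodup5 (hM : 8 ≤ Fintype.card M) {a b c : M} (hab : a ≠ b) (hac : a ≠ c)
    (hbc : b ≠ c) : ∃ p q, [a, b, c, p, q].Nodup := by
  obtain ⟨p, hp⟩ := exists_notMem_list [a, b, c] (by simp; omega)
  obtain ⟨q, hq⟩ := exists_notMem_list [a, b, c, p] (by simp; omega)
  simp only [List.mem_cons, List.not_mem_nil, or_false, not_or] at hp hq
  obtain ⟨h1, h2, h3⟩ := hp
  obtain ⟨h4, h5, h6, h7⟩ := hq
  exact ⟨p, q, by simp [hab, hac, hbc, Ne.symm h1, Ne.symm h2, Ne.symm h3, Ne.symm h4,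
    Ne.symm h5, Ne.symm h6, Ne.symm h7]⟩

include hker in
theorem map_Tf (hM : 8 ≤ Fintype.card M) {a b c : M} (hab : a ≠ b) (hac : a ≠ c)
    (hbc : b ≠ c) : π (Tf π hs j a b c) = j (C a b c) := by
  obtain ⟨p, q, h⟩ := exists_nodup5 hM hab hac hbc
  rw [Tf_eq π hker hs j hM h, map_T0 π hs j h]

include hker in
theorem conj_Tf (hM : 8 ≤ Fintype.card M) {g : E} {σ : alternatingGroup M} (hg : π g = j σ)
    {a b c : M} (hab : a ≠ b) (hac : a ≠ c) (hbc : b ≠ c) :
    g * Tf π hs j a b c * g⁻¹ =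
      Tf π hs j ((σ : Perm M) a) ((σ : Perm M) b) ((σ : Perm M) c) := by
  obtain ⟨p, q, h⟩ := exists_nodup5 hM hab hac hbc
  have h' : [(σ : Perm M) a, (σ : Perm M) b, (σ : Perm M) c, (σ : Perm M) p,
      (σ : Perm M) q].Nodup := by
    have := h.map (σ : Perm M).injective
    simpa using this
  rw [Tf_eq π hker hs j hM h, Tf_eq π hker hs j hM h', conj_T0 π hker hs j hg h]

include hker in
/-- The canonical lifts form a conjugation family. -/
theorem conjFamily_Tf (hM : 8 ≤ Fintype.card M) : ConjFamily (Tf π hs j) where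
  cyc a b c hab hac hbc := by
    have h := conj_Tf π hker hs j hM (map_Tf π hker hs j hM hab hac hbc) hab hac hbc
    rw [mul_inv_cancel_right, coe_C hab hbc, c3_apply_left hac hab, c3_apply_mid hac hbc,
      c3_apply_right] at h
    exact h.symm
  inv a b c hab hac hbc := by
    obtain ⟨p, q, h⟩ := exists_nodup5 hM hab hac hbc
    have h' : [a, c, b, q, p].Nodup := by
      simp only [List.nodup_cons, List.mem_cons, List.not_mem_nil, or_false, not_or,
        List.nodup_nil, not_false_eq_true, and_true] at h ⊢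
      obtain ⟨⟨hab, hac, hap, haq⟩, ⟨hbc, hbp, hbq⟩, ⟨hcp, hcq⟩, hpq⟩ := h
      exact ⟨⟨hac, hab, haq, hap⟩, ⟨Ne.symm hbc, hcq, hcp⟩, ⟨hbq, hbp⟩, Ne.symm hpq⟩
    rw [Tf_eq π hker hs j hM h', Tf_eq π hker hs j hM h, T0_inv]
  conj a b c p q r hab hac hbc hpq hpr hqr := by
    have h := conj_Tf π hker hs j hM (map_Tf π hker hs j hM hab hac hbc) hpq hpr hqr
    rw [coe_C hab hbc] at h
    exact h

/-- Everything in `E` lying over the alternating group is a product of canonical lifts up to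
the kernel. -/
theorem exists_mem_closure_tset {T : M → M → M → E} (hM : 3 ≤ Fintype.card M)
    (hT : ∀ a b c, a ≠ b → a ≠ c → b ≠ c → π (T a b c) = j (C a b c))
    (σ : alternatingGroup M) : ∃ g ∈ closure (tset T), π g = j σ := by
  obtain ⟨a, b, hab⟩ := Fintype.exists_pair_of_one_lt_card (show 1 < Fintype.card M by omega)
  have key : ∀ k ∈ closure ((fun i => c3 a b i) '' {i | i ≠ a ∧ i ≠ b}),
      ∃ g ∈ closure (tset T), ∃ hk : k ∈ alternatingGroup M, π g = j ⟨k, hk⟩ := by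
    intro k hk
    induction hk using closure_induction with
    | mem y hy =>
      obtain ⟨i, ⟨h1, h2⟩, rfl⟩ := hy
      refine ⟨T a b i, subset_closure ⟨a, b, i, hab, h1.symm, h2.symm, rfl⟩,
        c3_mem hab h2.symm, ?_⟩
      rw [hT a b i hab h1.symm h2.symm, C, dif_pos ⟨hab, h2.symm⟩]
    | one => exact ⟨1, one_mem _, one_mem _, by rw [map_one]; exact (map_one j).symm⟩
    | mul y z _ _ hy hz =>
      obtain ⟨g, hg, h1, h1'⟩ := hy
      obtain ⟨g', hg', h2, h2'⟩ := hz
      exact ⟨g * g', mul_mem hg hg', mul_mem h1 h2, by rw [map_mul, h1', h2', ← map_mul]; rfl⟩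
    | inv y _ hy =>
      obtain ⟨g, hg, h1, h1'⟩ := hy
      exact ⟨g⁻¹, inv_mem hg, inv_mem h1, by rw [map_inv, h1', ← map_inv]; rfl⟩
  obtain ⟨g, hg, hk, he⟩ := key σ (by rw [closure_c3 hab]; exact σ.2)
  exact ⟨g, hg, he⟩

end Fam

section Prod

variable {E A : Type*} [Group E] [Group A] (π : E →* A) (hker : π.ker ≤ center E)
  (hs : Function.Surjective π)
  {T : Type*} [Fintype T] [DecidableEq T] {M : T → Type*} [∀ t, Fintype (M t)]
  [∀ t, DecidableEq (M t)] (J : (∀ t, alternatingGroup (M t)) →* A)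

/-- The `t`-th factor. -/
def jt (t : T) : alternatingGroup (M t) →* A :=
  J.comp (MonoidHom.mulSingle (fun t => alternatingGroup (M t)) t)

omit [Fintype T] in
theorem jt_injective (hJ : Function.Injective J) (t : T) : Function.Injective (jt J t) :=
  fun _ _ h => Pi.mulSingle_injective t (hJ h)

omit [Fintype T] in
theorem jt_comm {s t : T} (hst : s ≠ t) (x : alternatingGroup (M s)) (y : alternatingGroup (M t)) :
    jt J s x * jt J t y = jt J t y * jt J s x := by
  show J (Pi.mulSingle s x) * J (Pi.mulSingle t y) = J (Pi.mulSingle t y) * J (Pi.mulSingle s x)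
  rw [← map_mul, ← map_mul]
  exact congrArg J (Pi.mulSingle_commute (f := fun t => alternatingGroup (M t)) hst x y).eq

/-- The group generated by the canonical lifts of the 3-cycles of the `t`-th factor. -/
noncomputable def SS (t : T) : Subgroup E := closure (tset (Tf π hs (jt J t)))

omit [Fintype T] in
include hker in
theorem map_SS (hM : ∀ t, 8 ≤ Fintype.card (M t)) {t : T} {y : E} (hy : y ∈ SS π hs J t) :
    ∃ τ, π y = jt J t τ := by
  obtain ⟨τ, h, -⟩ := (conjFamily_Tf π hker hs (jt J t) (hM t)).conj_of_mem π (jt J t)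
    (fun a b c h1 h2 h3 => map_Tf π hker hs (jt J t) (hM t) h1 h2 h3) hy
  exact ⟨τ, h⟩

omit [Fintype T] in
include hker in
theorem SS_commute (hM : ∀ t, 8 ≤ Fintype.card (M t)) {t : T} {x : E}
    (hx : ∀ τ, jt J t τ * π x = π x * jt J t τ) {y : E} (hy : y ∈ SS π hs J t) :
    y * x = x * y := by
  induction hy using closure_induction with
  | mem y hy =>
    obtain ⟨a, b, c, h1, h2, h3, rfl⟩ := hy
    obtain ⟨p, q, h⟩ := exists_nodup5 (hM t) h1 h2 h3
    rw [Tf_eq π hker hs (jt J t) (hM t) h, T0, cm]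
    refine comm_commute π hker ?_ ?_
    · rw [(hs _).choose_spec]; exact hx _
    · rw [(hs _).choose_spec]; exact hx _
  | one => rw [one_mul, mul_one]
  | mul y z _ _ h1 h2 => rw [mul_assoc, h2, ← mul_assoc, h1, mul_assoc]
  | inv y _ h1 => rw [inv_mul_eq_iff_eq_mul, ← mul_assoc, h1, mul_assoc, mul_inv_cancel, mul_one]

include hker hs in
/-- **Kernel bound.**  For a central extension `π : E → A` and an embedded product `P` of
alternating groups of degree at least `8`, the perfect lift `[π⁻¹ P, π⁻¹ P]` meets the kernel in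
at most `4 ^ (number of factors)` elements. -/
theorem kernel_bound (hM : ∀ t, 8 ≤ Fintype.card (M t)) (hJ : Function.Injective J) :
    ((π.ker ⊓ ⁅J.range.comap π, J.range.comap π⁆ : Subgroup E) : Set E).Finite ∧
    Nat.card (π.ker ⊓ ⁅J.range.comap π, J.range.comap π⁆ : Subgroup E) ≤
      4 ^ Fintype.card T := by
  classical
  have hcomm : Pairwise fun s t => ∀ x y : E, x ∈ SS π hs J s → y ∈ SS π hs J t →
      Commute x y := by
    intro s t hst x y hx hy
    obtain ⟨σ, hσ⟩ := map_SS π hker hs J hM hx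
    exact (SS_commute π hker hs J hM (fun τ => by rw [hσ, jt_comm J hst]) hy).symm
  let Φ : (∀ t, SS π hs J t) →* E := Subgroup.noncommPiCoprod hcomm
  -- the projections
  have hθ : ∀ t, ∀ x : SS π hs J t, ∃ τ, π x = jt J t τ := fun t x =>
    map_SS π hker hs J hM x.2
  choose φ hφ using hθ
  have hinj := jt_injective J hJ
  let θ : ∀ t, SS π hs J t →* alternatingGroup (M t) := fun t =>
    { toFun := φ t
      map_one' := hinj t (by rw [← hφ, map_one]; exact map_one π)
      map_mul' := fun x y => hinj t (by rw [map_mul, ← hφ, ← hφ, ← hφ]; exact map_mul π _ _) }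
  let Θ : (∀ t, SS π hs J t) →* (∀ t, alternatingGroup (M t)) :=
    MonoidHom.mk' (fun u t => θ t (u t)) (fun u v => by
      funext t; exact map_mul (θ t) (u t) (v t))
  have hΦΘ : ∀ u, π (Φ u) = J (Θ u) := by
    intro u
    have : u ∈ (π.comp Φ).eqLocus (J.comp Θ) := by
      apply Subgroup.pi_mem_of_mulSingle_mem
      intro t
      show π (Φ (Pi.mulSingle t (u t))) = J (Θ (Pi.mulSingle t (u t)))
      have e1 : Φ (Pi.mulSingle t (u t)) = u t :=
        Subgroup.noncommPiCoprod_mulSingle (hcomm := hcomm) t (u t)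
      have e2 : Θ (Pi.mulSingle t (u t)) = Pi.mulSingle t (θ t (u t)) := by
        funext s
        show θ s ((Pi.mulSingle t (u t) : ∀ t, SS π hs J t) s) = _
        by_cases h : s = t
        · subst h; rw [Pi.mulSingle_eq_same, Pi.mulSingle_eq_same]
        · rw [Pi.mulSingle_eq_of_ne h, Pi.mulSingle_eq_of_ne h, map_one]
      rw [e1, e2]
      exact hφ t (u t)
    exact this
  -- `Φ.range` surjects onto `J.range`
  have hsurj : ∀ σ, ∃ u, π (Φ u) = J σ := by
    intro σ
    have h1 : ∀ t, ∃ g : SS π hs J t, π g = jt J t (σ t) := fun t => by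
      obtain ⟨g, hg, he⟩ := exists_mem_closure_tset π (jt J t)
        (T := Tf π hs (jt J t)) (by have := hM t; omega)
        (fun a b c h1 h2 h3 => map_Tf π hker hs (jt J t) (hM t) h1 h2 h3) (σ t)
      exact ⟨⟨g, hg⟩, he⟩
    choose u hu using h1
    refine ⟨u, ?_⟩
    rw [hΦΘ]
    congr 1
    funext t
    exact hinj t (by rw [← hu t]; exact (hφ t (u t)).symm)
  have hlift : ⁅J.range.comap π, J.range.comap π⁆ ≤ Φ.range := by
    rw [Subgroup.commutator_le]
    rintro g ⟨σ, hσ⟩ h ⟨τ, hτ⟩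
    obtain ⟨u, hu⟩ := hsurj σ
    obtain ⟨v, hv⟩ := hsurj τ
    rw [comm_eq_of_map_eq π hker (g := g) (g' := Φ u) (h := h) (h' := Φ v)
      (by rw [hu, hσ]) (by rw [hv, hτ]), ← map_commutatorElement]
    exact ⟨_, rfl⟩
  -- kernels of the factors
  have hK : ∀ t, ∃ k : Fin 4 → SS π hs J t, ∀ x : SS π hs J t, π x = 1 → ∃ i, x = k i := by
    intro t
    obtain ⟨z₁, z₂, h1, h2, -, -, -, -, -, -, h⟩ :=
      (conjFamily_Tf π hker hs (jt J t) (hM t)).kernel (by have := hM t; omega) π (jt J t)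
        (hinj t) (fun a b c h1 h2 h3 => map_Tf π hker hs (jt J t) (hM t) h1 h2 h3)
    refine ⟨![1, ⟨z₁, h1⟩, ⟨z₂, h2⟩, ⟨z₁ * z₂, mul_mem h1 h2⟩], ?_⟩
    rintro ⟨x, hx⟩ hx1
    rcases h x hx hx1 with h | h | h | h
    · exact ⟨0, Subtype.ext h⟩
    · exact ⟨1, Subtype.ext h⟩
    · exact ⟨2, Subtype.ext h⟩
    · exact ⟨3, Subtype.ext h⟩
  choose k hk using hK
  let F : (T → Fin 4) → E := fun f => Φ (fun t => k t (f t))
  have hsub : ((π.ker ⊓ ⁅J.range.comap π, J.range.comap π⁆ : Subgroup E) : Set E) ⊆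
      Set.range F := by
    rintro z ⟨hz1, hz2⟩
    obtain ⟨u, rfl⟩ := hlift hz2
    have h1 : J (Θ u) = 1 := by rw [← hΦΘ]; exact hz1
    have h2 : Θ u = 1 := hJ (by rw [h1, map_one])
    have h3 : ∀ t, π (u t) = 1 := fun t => by
      have h4 : φ t (u t) = 1 := congrFun h2 t
      rw [hφ, h4, map_one]
    have h5 : ∀ t, ∃ i, u t = k t i := fun t => hk t (u t) (h3 t)
    choose f hf using h5
    exact ⟨f, by simp only [F]; congr 1; funext t; exact (hf t).symm⟩
  have hfin : (Set.range F).Finite := Set.finite_range F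
  refine ⟨hfin.subset hsub, ?_⟩
  have h1 : Nat.card (π.ker ⊓ ⁅J.range.comap π, J.range.comap π⁆ : Subgroup E) ≤
      Nat.card (Set.range F) := Nat.card_mono hfin hsub
  have h2 : Nat.card (Set.range F) ≤ Nat.card (T → Fin 4) := Finite.card_range_le F
  have h3 : Nat.card (T → Fin 4) = 4 ^ Fintype.card T := by
    rw [Nat.card_eq_fintype_card, Fintype.card_fun, Fintype.card_fin]
  exact h1.trans (h2.trans h3.le)

end Prod

end Vale.Agent.P196.H798
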