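import Vale.Agent.P196.H798.Dec3
import Vale.Agent.P196.Cut.Letter
import Vale.Agent.P196.H513.DecDef

/-!
Block S-DEC of P196, part 4: decomposition of words near vertices, edges and in the faces.
-/

noncomputable section

namespace Vale.Agent.P196.H798

open Equiv Vale.Agent.P196.S0 Vale.Agent.P196.Cut Vale.Agent.P196.H513 Vale.Agent.P196.Wang

section words

variable {ι : Type*}

theorem wd_mem (H : Subgroup (Perm (Z2 × ι))) (w : List (Letter ι)) (D : ℕ → Set Z2)
    (h : ∀ i (hi : i < w.length), X w[i].σ (w[i].E ∩ D i) w[i].a ∈ H) : wd w D ∈ H := by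
  induction w generalizing D with
  | nil => exact one_mem _
  | cons l w ih =>
    rw [wd_cons]
    refine mul_mem (h 0 (by simp)) (ih _ fun i hi => ?_)
    exact h (i + 1) (by simpa using hi)

theorem wd_fix (w : List (Letter ι)) (D : ℕ → Set Z2) (z : Z2 × ι)
    (h : ∀ i (hi : i < w.length), X w[i].σ (w[i].E ∩ D i) w[i].a z = z) : wd w D z = z := by
  induction w generalizing D with
  | nil => rfl
  | cons l w ih =>
    rw [wd_cons, Perm.mul_apply, ih]
    · exact h 0 (by simp)
    · intro i hi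
      exact h (i + 1) (by simpa using hi)

theorem wd_commute (w : List (Letter ι)) (D : ℕ → Set Z2) (y : Perm (Z2 × ι))
    (h : ∀ i (hi : i < w.length), Commute (X w[i].σ (w[i].E ∩ D i) w[i].a) y) :
    Commute (wd w D) y := by
  induction w generalizing D with
  | nil => exact Commute.one_left _
  | cons l w ih =>
    rw [wd_cons]
    refine Commute.mul_left (h 0 (by simp)) (ih _ fun i hi => ?_)
    exact h (i + 1) (by simpa using hi)

/-- The word is the product of its three parts. -/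
theorem wd_split (w : List (Letter ι)) (DV DR DF : ℕ → Set Z2)
    (hp : ∀ i, Disjoint (DV i) (DR i) ∧ Disjoint (DV i) (DF i) ∧ Disjoint (DR i) (DF i) ∧
        DV i ∪ DR i ∪ DF i = Set.univ)
    (hc : ∀ i k (hi : i < w.length) (hk : k < w.length), k ≤ i →
        Commute (X w[i].σ (w[i].E ∩ DV i) w[i].a) (X w[k].σ (w[k].E ∩ DR k) w[k].a) ∧
        Commute (X w[i].σ (w[i].E ∩ DV i) w[i].a) (X w[k].σ (w[k].E ∩ DF k) w[k].a) ∧
        Commute (X w[i].σ (w[i].E ∩ DR i) w[i].a) (X w[k].σ (w[k].E ∩ DF k) w[k].a)) :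
    wprod w = wd w DV * wd w DR * wd w DF := by
  induction w generalizing DV DR DF with
  | nil => simp [wprod]
  | cons l w ih =>
    have h1 := ih (fun i => DV (i + 1)) (fun i => DR (i + 1)) (fun i => DF (i + 1))
      (fun i => hp (i + 1)) (fun i k hi hk hki => by
        have := hc (i + 1) (k + 1) (by simpa using hi) (by simpa using hk) (by omega)
        simpa using this)
    have e0 : wprod (l :: w) = X l.σ l.E l.a * wprod w := by
      unfold wprod
      rw [wd_cons, Set.inter_univ]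
    obtain ⟨p1, p2, p3, p4⟩ := hp 0
    have e1 : X l.σ l.E l.a = X l.σ (l.E ∩ DV 0) l.a * X l.σ (l.E ∩ DR 0) l.a *
        X l.σ (l.E ∩ DF 0) l.a := ltr_split l.σ l.E (DV 0) (DR 0) (DF 0) p1 p2 p3 p4 l.a
    have c1 : Commute (wd w (fun i => DV (i + 1))) (X l.σ (l.E ∩ DR 0) l.a) :=
      wd_commute w _ _ fun i hi => by
        have := (hc (i + 1) 0 (by simpa using hi) (by simp) (by omega)).1
        simpa using this
    have c2 : Commute (wd w (fun i => DV (i + 1))) (X l.σ (l.E ∩ DF 0) l.a) :=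
      wd_commute w _ _ fun i hi => by
        have := (hc (i + 1) 0 (by simpa using hi) (by simp) (by omega)).2.1
        simpa using this
    have c3 : Commute (wd w (fun i => DR (i + 1))) (X l.σ (l.E ∩ DF 0) l.a) :=
      wd_commute w _ _ fun i hi => by
        have := (hc (i + 1) 0 (by simpa using hi) (by simp) (by omega)).2.2
        simpa using this
    rw [e0, e1, h1, wd_cons, wd_cons, wd_cons]
    generalize X l.σ (l.E ∩ DV 0) l.a = xv at *
    generalize X l.σ (l.E ∩ DR 0) l.a = xr at *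
    generalize X l.σ (l.E ∩ DF 0) l.a = xf at *
    generalize wd w (fun i => DV (i + 1)) = v at *
    generalize wd w (fun i => DR (i + 1)) = r at *
    generalize wd w (fun i => DF (i + 1)) = f at *
    calc xv * xr * xf * (v * r * f) = xv * xr * (xf * v) * r * f := by simp only [mul_assoc]
      _ = xv * xr * (v * xf) * r * f := by rw [c2.eq]
      _ = xv * (xr * v) * (xf * r) * f := by simp only [mul_assoc]
      _ = xv * (v * xr) * (r * xf) * f := by rw [c1.eq, c3.eq]
      _ = xv * v * (xr * r) * (xf * f) := by simp only [mul_assoc]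

end words

section regions

variable {M : ℤ} {ι : Type*}

theorem regions_part (a b : ℤ) : Disjoint (DVr M a) (DRr M a b) ∧ Disjoint (DVr M a) (DFr M a b) ∧
    Disjoint (DRr M a b) (DFr M a b) ∧ DVr M a ∪ DRr M a b ∪ DFr M a b = Set.univ := by
  refine ⟨?_, ?_, ?_, ?_⟩
  · rw [Set.disjoint_left]
    rintro u h1 ⟨h2, -⟩
    exact h2 h1
  · rw [Set.disjoint_left]
    rintro u h1 ⟨h2, -⟩
    exact h2 h1
  · rw [Set.disjoint_left]
    rintro u ⟨-, h1⟩ ⟨-, h2⟩
    exact h2 h1
  · ext u
    simp only [Set.mem_union, Set.mem_univ, iff_true]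
    by_cases h1 : dI M u.1 < a ∧ dI M u.2 < a
    · exact Or.inl (Or.inl h1)
    · by_cases h2 : dI M u.1 < b ∨ dI M u.2 < b
      · exact Or.inl (Or.inr ⟨h1, h2⟩)
      · exact Or.inr ⟨h1, h2⟩

theorem comm_same (σ : ι → Z2) (E : Set Z2) {D D' : Set Z2} (h : Disjoint D D') (a c : Perm ι) :
    Commute (X σ (E ∩ D) a) (X σ (E ∩ D') c) := by
  apply ltr_commute
  rintro x ⟨-, hx⟩ y ⟨-, hy⟩ f hxy
  have : x = y := add_right_cancel hxy
  subst this
  exact Set.disjoint_left.1 h hx hy

theorem comm_V (hM : 0 < M) {σ τ : ι → Z2} {r : ℤ} (hσ : OffBd r σ) (hτ : OffBd r τ) (hr : r ≤ M)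
    {a a' : ℤ} (haa : a + 2 * r ≤ a') (E F : Set Z2) {D : Set Z2} (hD : Disjoint (DVr M a') D)
    (α γ : Perm ι) : Commute (X σ (E ∩ DVr M a) α) (X τ (F ∩ D) γ) := by
  apply ltr_commute
  rintro x ⟨-, hx⟩ y ⟨-, hy⟩ f hxy
  have hyV : y ∈ DVr M a' := by
    refine ⟨?_, ?_⟩
    · have h1 := dI_lip hM hr (x := x.1) (y := (x + σ f).1) (by simpa using (hσ f).1)
      have h2 := dI_lip' hM hr (x := y.1) (y := (y + τ f).1) (by simpa using (hτ f).1)
      rw [hxy] at h1
      have := hx.1
      omega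
    · have h1 := dI_lip hM hr (x := x.2) (y := (x + σ f).2) (by simpa using (hσ f).2)
      have h2 := dI_lip' hM hr (x := y.2) (y := (y + τ f).2) (by simpa using (hτ f).2)
      rw [hxy] at h1
      have := hx.2
      omega
  exact Set.disjoint_left.1 hD hyV hy

theorem comm_RF (hM : 0 < M) {σ τ : ι → Z2} {r : ℤ} (hσ : OffBd r σ) (hτ : OffBd r τ) (hr : r ≤ M)
    {a a' b b' : ℤ} (hbb : b + 2 * r ≤ b') (E F : Set Z2) (α γ : Perm ι) :
    Commute (X σ (E ∩ DRr M a b) α) (X τ (F ∩ DFr M a' b') γ) := by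
  apply ltr_commute
  rintro x ⟨-, hx⟩ y ⟨-, hy⟩ f hxy
  apply hy.2
  have h1 := dI_lip hM hr (x := x.1) (y := (x + σ f).1) (by simpa using (hσ f).1)
  have h2 := dI_lip' hM hr (x := y.1) (y := (y + τ f).1) (by simpa using (hτ f).1)
  have h3 := dI_lip hM hr (x := x.2) (y := (x + σ f).2) (by simpa using (hσ f).2)
  have h4 := dI_lip' hM hr (x := y.2) (y := (y + τ f).2) (by simpa using (hτ f).2)
  rw [hxy] at h1 h3
  rcases hx.2 with h | h
  · left; omega
  · right; omega

theorem sub_offset {σ : ι → Z2} {r : ℤ} (hM : 0 < M) (hσ : OffBd r σ) (hr : r ≤ M) (u : Z2)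
    (f : ι) : dI M u.1 ≤ dI M (u - σ f).1 + r ∧ dI M (u - σ f).1 ≤ dI M u.1 + r ∧
      dI M u.2 ≤ dI M (u - σ f).2 + r ∧ dI M (u - σ f).2 ≤ dI M u.2 + r := by
  have e1 : |u.1 - (u - σ f).1| ≤ r := by simpa using (hσ f).1
  have e2 : |u.2 - (u - σ f).2| ≤ r := by simpa using (hσ f).2
  exact ⟨dI_lip hM hr e1, dI_lip' hM hr e1, dI_lip hM hr e2, dI_lip' hM hr e2⟩

theorem dI_le_abs (hM : 0 < M) {x c : ℤ} (h : |x| ≤ c) (hc : c < M) : dI M x ≤ c := by
  rw [abs_le] at h
  rcases lt_or_ge x 0 with h1 | h1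
  · have := dI_left (x := x) (k := 0) hM (by omega) (by omega)
    omega
  · have := dI_right (x := x) (k := 0) hM (by omega) (by omega)
    omega

theorem abs_le_of_dI (hM : 0 < M) {x c a : ℤ} (h : |x| ≤ M + c) (hd : dI M x < a)
    (hac : a + 3 * c + 1 ≤ M) (hc : 0 ≤ c) : |x| ≤ M - 3 * c - 1 := by
  have h0 := dI_nonneg hM x
  rw [abs_le] at h ⊢
  rcases lt_or_ge x (-M) with h1 | h1
  · have := dI_right (x := x) (k := -1) hM (by omega) (by omega)
    omega
  rcases lt_or_ge x 0 with h2 | h2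
  · have := dI_left (x := x) (k := 0) hM (by omega) (by omega)
    omega
  rcases lt_or_ge x M with h3 | h3
  · have := dI_right (x := x) (k := 0) hM (by omega) (by omega)
    omega
  · have := dI_left (x := x) (k := 1) hM (by omega) (by omega)
    omega

end regions

/-- A common radius for the base sets of a word. -/
theorem exists_rad {ι : Type*} (w : List (Letter ι)) (hw : ∀ l ∈ w, l.E ∈ Wang.LS) :
    ∃ R : ℕ, ∀ l ∈ w, ∀ u v : Z2, SameWin R u v → (u ∈ l.E ↔ v ∈ l.E) := by
  induction w with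
  | nil => exact ⟨0, fun l hl => by simp at hl⟩
  | cons l w ih =>
    obtain ⟨R, hR⟩ := ih (fun l' hl' => hw l' (List.mem_cons_of_mem _ hl'))
    obtain ⟨R', hR'⟩ := hw l List.mem_cons_self
    refine ⟨max R R', fun l' hl' u v h => ?_⟩
    rcases List.mem_cons.1 hl' with rfl | hl'
    · exact hR' u v (h.mono (le_max_right _ _))
    · exact hR l' hl' u v (h.mono (le_max_left _ _))

/-- **S-DEC.** -/
theorem stmtDec (ι : Type) [Fintype ι] [DecidableEq ι] [Nonempty ι] : StmtDec ι := by
  intro w hw hw1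
  obtain ⟨r, hr, hbd⟩ := exists_bd w
  obtain ⟨R, hR⟩ := exists_rad w (fun l hl => (hw l hl).1)
  -- the offsets of the radii
  set Q : ℤ := r * (w.length : ℤ) with hQ
  let q : ℕ → ℤ := fun i => r * ((w.length - i : ℕ) : ℤ)
  have hQ0 : 0 ≤ Q := by positivity
  have hq0 : ∀ i, 0 ≤ q i := fun i => by positivity
  have hqQ : ∀ i, q i ≤ Q := fun i =>
    mul_le_mul_of_nonneg_left (by exact_mod_cast Nat.sub_le _ _) hr
  have hqk : ∀ i k, k < i → i < w.length → q i + r ≤ q k := by
    intro i k hki hi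
    have h1 : ((w.length - i : ℕ) : ℤ) + 1 ≤ ((w.length - k : ℕ) : ℤ) := by omega
    have h2 := mul_le_mul_of_nonneg_left h1 hr
    simp only [q]
    linarith
  -- the level
  obtain ⟨m0, hm0⟩ : ∃ m0 : ℕ, 60 * Q + 20 * r + R + 64 ≤ 2 ^ m0 := by
    obtain ⟨n, hn⟩ : ∃ n : ℕ, 60 * Q + 20 * r + R + 64 ≤ n := ⟨_, Int.self_le_toNat _⟩
    refine ⟨n, hn.trans ?_⟩
    exact_mod_cast (Nat.lt_two_pow_self (n := n)).le
  refine ⟨m0, fun m hm => ?_⟩
  have hs0 : 60 * Q + 20 * r + R + 64 ≤ 2 ^ m :=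
    hm0.trans (pow_le_pow_right₀ (by norm_num) hm)
  have hMs := MM_eq m
  have hM := MM_pos m
  have hN := two_MM m
  set s : ℤ := 2 ^ m with hs
  set M : ℤ := MM m with hMdef
  let a : ℕ → ℤ := fun i => s + 8 * Q + 4 + 3 * r + 2 * q i
  let b : ℕ → ℤ := fun i => s - 2 * Q - r + 2 * q i
  have haq : ∀ i, a i = s + 8 * Q + 4 + 3 * r + 2 * q i := fun _ => rfl
  have hbq : ∀ i, b i = s - 2 * Q - r + 2 * q i := fun _ => rfl
  have hoff : ∀ i (hi : i < w.length), OffBd r w[i].σ := fun i hi =>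
    hbd _ (List.getElem_mem hi)
  have hrM : r ≤ M := by omega
  -- (d1)
  have hd1 : ∀ i (hi : i < w.length), ∀ α ∈ alternatingGroup ι,
        X w[i].σ (w[i].E ∩ DVr M (a i)) α ∈ (Vsys hM Wang.tySys).G ι ∧
          X w[i].σ (w[i].E ∩ DRr M (a i) (b i)) α ∈ (RSsys hM s Wang.tySys).G ι ∧
          X w[i].σ (w[i].E ∩ DFr M (a i) (b i)) α ∈ (Fsys hM Wang.tySys).G ι := by
    intro i hi α hα
    have hE := hR _ (List.getElem_mem hi)
    have h1 := hq0 i
    have h2 := hqQ i
    have h3 := haq i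
    have h4 := hbq i
    refine ⟨X_mem_V hM hN hE (hoff i hi) (by omega) (by omega) hα,
      X_mem_RS hM hN hE (hoff i hi) hr (by omega) (by omega) (by omega) (by omega) (by omega) hα,
      X_mem_F hM hN hE (hoff i hi) (by omega) (by omega) hα⟩
  -- (d2)
  have hd2 : ∀ i k (hi : i < w.length) (hk : k < w.length), k ≤ i →
        ∀ α ∈ alternatingGroup ι, ∀ γ ∈ alternatingGroup ι,
        Commute (X w[i].σ (w[i].E ∩ DVr M (a i)) α) (X w[k].σ (w[k].E ∩ DRr M (a k) (b k)) γ) ∧
        Commute (X w[i].σ (w[i].E ∩ DVr M (a i)) α) (X w[k].σ (w[k].E ∩ DFr M (a k) (b k)) γ) ∧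
        Commute (X w[i].σ (w[i].E ∩ DRr M (a i) (b i)) α)
          (X w[k].σ (w[k].E ∩ DFr M (a k) (b k)) γ) := by
    intro i k hi hk hki α _ γ _
    rcases Nat.lt_or_ge k i with h | h
    · have h1 := hqk i k h hi
      have h3 := haq i
      have h4 := hbq i
      have h5 := haq k
      have h6 := hbq k
      obtain ⟨p1, p2, -, -⟩ := regions_part (M := M) (a k) (b k)
      exact ⟨comm_V hM (hoff i hi) (hoff k hk) hrM (by omega) _ _ p1 _ _,
        comm_V hM (hoff i hi) (hoff k hk) hrM (by omega) _ _ p2 _ _,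
        comm_RF hM (hoff i hi) (hoff k hk) hrM (by omega) _ _ _ _⟩
    · obtain rfl : k = i := le_antisymm hki h
      obtain ⟨p1, p2, p3, -⟩ := regions_part (M := M) (a k) (b k)
      exact ⟨comm_same _ _ p1 _ _, comm_same _ _ p2 _ _, comm_same _ _ p3 _ _⟩
  have hwa : ∀ i (hi : i < w.length), w[i].a ∈ alternatingGroup ι := fun i hi =>
    (hw _ (List.getElem_mem hi)).2
  refine ⟨fun i => DVr M (a i), fun i => DRr M (a i) (b i), fun i => DFr M (a i) (b i),
    fun i => regions_part (a i) (b i), hd1, hd2, ?_, ?_⟩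
  · refine ⟨s + 8 * Q + 4 + 2 * r, s + 10 * Q + 4 + 4 * r, 2 * Q, ?_⟩
    have hdisp : 2 * r * (w.length : ℤ) = 2 * Q := by rw [hQ]; ring
    constructor
    · omega
    · omega
    · omega
    · omega
    · omega
    · exact wd_mem _ w _ fun i hi => (hd1 i hi _ (hwa i hi)).1
    · exact wd_mem _ w _ fun i hi => (hd1 i hi _ (hwa i hi)).2.1
    · exact wd_mem _ w _ fun i hi => (hd1 i hi _ (hwa i hi)).2.2
    · rw [← wd_split w _ _ _ (fun i => regions_part (a i) (b i))
        (fun i k hi hk hki => hd2 i k hi hk hki _ (hwa i hi) _ (hwa k hk)), hw1]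
    · rintro ⟨u, f⟩ hz
      apply wd_fix
      intro i hi
      apply X_apply_notMem
      rintro ⟨-, h1, h2⟩
      have h3 := sub_offset hM (hoff i hi) hrM u f
      have h4 := haq i
      have h5 := hqQ i
      simp only [mx, ← hMdef] at hz
      omega
    · rintro ⟨u, f⟩ hz
      apply wd_fix
      intro i hi
      apply X_apply_notMem
      rintro ⟨-, h1, -⟩
      have h3 := sub_offset hM (hoff i hi) hrM u f
      have h4 := haq i
      have h5 := hq0 i
      simp only [mx, ← hMdef] at hz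
      apply h1
      omega
    · rintro ⟨u, f⟩ hz
      apply wd_fix
      intro i hi
      apply X_apply_notMem
      rintro ⟨-, h1, -⟩
      have h3 := sub_offset hM (hoff i hi) hrM u f
      have h4 := haq i
      have h5 := hq0 i
      simp only [mx, ← hMdef] at hz
      apply h1
      omega
    · intro z
      have := wd_disp hbd (fun i => DVr M (a i)) z
      rw [hdisp] at this
      exact this
    · intro z
      have := wd_disp hbd (fun i => DFr M (a i) (b i)) z
      rw [hdisp] at this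
      exact this
  · refine ⟨r, 2 * Q + r, hr, hbd, ?_, ?_, ?_, ?_⟩
    · rw [hQ]
      exact le_of_eq (by ring)
    · omega
    · intro i u hu
      have h4 := haq i
      have h5 := hq0 i
      have h6 := hqQ i
      have h1 := dI_le_abs hM hu.1 (by omega)
      have h2 := dI_le_abs hM hu.2 (by omega)
      exact ⟨by omega, by omega⟩
    · intro i u hu hd
      have h4 := haq i
      have h5 := hq0 i
      have h6 := hqQ i
      exact ⟨abs_le_of_dI hM hd.1 hu.1 (by omega) (by omega),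
        abs_le_of_dI hM hd.2 hu.2 (by omega) (by omega)⟩

end Vale.Agent.P196.H798
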