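import Vale.Agent.P196.H798.Carmichael

/-!
Carmichael's presentation of the alternating groups, consequences (block A1 of P196):

* `closure_c3`        : the 3-cycles `(a b i)` generate the alternating group;
* `exists_alt_hom`    : elements `x i` with `x i ^ 3 = 1`, `(x i * x j) ^ 2 = 1` give a
                        homomorphism `alternatingGroup α →* H`, `(a b i) ↦ x i`;
* `mem_of_map_eq_one` : kernel control modulo a normal subgroup;
* `exists_alt_hom_of_R` : the version with all 3-cycles and the relation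
                        `t a b c * t a c d = t b c d`.
-/

namespace Vale.Agent.P196.H798

open Subgroup Equiv Equiv.Perm

variable {α : Type*} [DecidableEq α]

/-- The 3-cycle `a → b → c → a` (functional composition). -/
def c3 (a b c : α) : Perm α := swap a b * swap b c

theorem c3_apply_left {a b c : α} (hac : a ≠ c) (hab : a ≠ b) : c3 a b c a = b := by
  simp [c3, swap_apply_of_ne_of_ne hab hac]

theorem c3_apply_mid {a b c : α} (hac : a ≠ c) (hbc : b ≠ c) : c3 a b c b = c := by
  simp [c3, swap_apply_of_ne_of_ne hac.symm hbc.symm]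

theorem c3_apply_right (a b c : α) : c3 a b c c = a := by
  simp [c3]

theorem c3_apply_of_ne {a b c d : α} (ha : d ≠ a) (hb : d ≠ b) (hc : d ≠ c) : c3 a b c d = d := by
  simp [c3, swap_apply_of_ne_of_ne ha hb, swap_apply_of_ne_of_ne hb hc]

variable [Fintype α]

theorem sign_c3 {a b c : α} (hab : a ≠ b) (hbc : b ≠ c) : sign (c3 a b c) = 1 := by
  simp [c3, sign_swap hab, sign_swap hbc]

theorem c3_mem {a b c : α} (hab : a ≠ b) (hbc : b ≠ c) : c3 a b c ∈ alternatingGroup α :=
  mem_alternatingGroup.2 (sign_c3 hab hbc)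

omit [Fintype α] in
theorem c3_rotate {a b c : α} (hab : a ≠ b) (hac : a ≠ c) (hbc : b ≠ c) :
    c3 b c a = c3 a b c := by
  ext d
  by_cases h1 : d = a
  · subst h1; rw [c3_apply_right, c3_apply_left hac hab]
  by_cases h2 : d = b
  · subst h2; rw [c3_apply_left hab.symm hbc, c3_apply_mid hac hbc]
  by_cases h3 : d = c
  · subst h3; rw [c3_apply_mid hab.symm hac.symm, c3_apply_right]
  rw [c3_apply_of_ne h2 h3 h1, c3_apply_of_ne h1 h2 h3]

omit [Fintype α] in
theorem c3_inv {a b c : α} (hab : a ≠ b) (hac : a ≠ c) (hbc : b ≠ c) :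
    (c3 a b c)⁻¹ = c3 a c b := by
  rw [inv_eq_iff_mul_eq_one]
  ext d
  rw [mul_apply, one_apply]
  by_cases h1 : d = a
  · subst h1; rw [c3_apply_left hab hac, c3_apply_right]
  by_cases h2 : d = b
  · subst h2; rw [c3_apply_right, c3_apply_left hac hab]
  by_cases h3 : d = c
  · subst h3; rw [c3_apply_mid hab hbc.symm, c3_apply_mid hac hbc]
  rw [c3_apply_of_ne h1 h3 h2, c3_apply_of_ne h1 h2 h3]

omit [Fintype α] in
/-- `(a b c)(a c d) = (b c d)`. -/
theorem c3_R {a b c d : α} (hab : a ≠ b) (hac : a ≠ c) (had : a ≠ d) (hbc : b ≠ c)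
    (hbd : b ≠ d) (hcd : c ≠ d) : c3 a b c * c3 a c d = c3 b c d := by
  ext e
  rw [mul_apply]
  by_cases h1 : e = a
  · subst h1; rw [c3_apply_left had hac, c3_apply_right, c3_apply_of_ne hab hac had]
  by_cases h2 : e = b
  · subst h2; rw [c3_apply_of_ne h1 hbc hbd, c3_apply_mid hac hbc, c3_apply_left hbd hbc]
  by_cases h3 : e = c
  · subst h3; rw [c3_apply_mid had hcd, c3_apply_of_ne had.symm hbd.symm hcd.symm,
      c3_apply_mid hbd hcd]
  by_cases h4 : e = d
  · subst h4; rw [c3_apply_right, c3_apply_left hac hab, c3_apply_right]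
  rw [c3_apply_of_ne h1 h3 h4, c3_apply_of_ne h1 h2 h3, c3_apply_of_ne h2 h3 h4]

omit [Fintype α] in
theorem c3_pow_three {a b c : α} (hab : a ≠ b) (hac : a ≠ c) (hbc : b ≠ c) :
    c3 a b c ^ 3 = 1 := by
  ext d
  rw [pow_succ, pow_succ, pow_one, mul_apply, mul_apply, one_apply]
  by_cases h1 : d = a
  · subst h1; rw [c3_apply_left hac hab, c3_apply_mid hac hbc, c3_apply_right]
  by_cases h2 : d = b
  · subst h2; rw [c3_apply_mid hac hbc, c3_apply_right, c3_apply_left hac hab]
  by_cases h3 : d = c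
  · subst h3; rw [c3_apply_right, c3_apply_left hac hab, c3_apply_mid hac hbc]
  rw [c3_apply_of_ne h1 h2 h3, c3_apply_of_ne h1 h2 h3, c3_apply_of_ne h1 h2 h3]

omit [Fintype α] in
theorem c3_mul_sq {a b i j : α} (hab : a ≠ b) (hia : i ≠ a) (hib : i ≠ b) (hja : j ≠ a)
    (hjb : j ≠ b) (hij : i ≠ j) : (c3 a b i * c3 a b j) ^ 2 = 1 := by
  have key : c3 a b i * c3 a b j = swap a i * swap b j := by
    ext e
    rw [mul_apply, mul_apply]
    by_cases h1 : e = a
    · subst h1
      rw [c3_apply_left hja.symm hab, c3_apply_mid hia.symm hib.symm,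
        swap_apply_of_ne_of_ne hab hja.symm, swap_apply_left]
    by_cases h2 : e = b
    · subst h2
      rw [c3_apply_mid hja.symm hjb.symm, c3_apply_of_ne hja hjb hij.symm, swap_apply_left,
        swap_apply_of_ne_of_ne hja hij.symm]
    by_cases h3 : e = i
    · subst h3
      rw [c3_apply_of_ne hia hib hij, c3_apply_right, swap_apply_of_ne_of_ne hib hij,
        swap_apply_right]
    by_cases h4 : e = j
    · subst h4
      rw [c3_apply_right, c3_apply_left hia.symm hab, swap_apply_right,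
        swap_apply_of_ne_of_ne hab.symm hib.symm]
    rw [c3_apply_of_ne h1 h2 h4, c3_apply_of_ne h1 h2 h3, swap_apply_of_ne_of_ne h2 h4,
      swap_apply_of_ne_of_ne h1 h3]
  have hcomm : swap a i * swap b j = swap b j * swap a i := by
    have hd : Disjoint (swap a i) (swap b j) := by
      intro e
      by_cases h1 : e = a
      · subst h1; exact Or.inr (swap_apply_of_ne_of_ne hab hja.symm)
      by_cases h2 : e = i
      · subst h2; exact Or.inr (swap_apply_of_ne_of_ne hib hij)
      exact Or.inl (swap_apply_of_ne_of_ne h1 h2)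
    exact hd.commute.eq
  rw [key, pow_two]
  calc swap a i * swap b j * (swap a i * swap b j)
      = swap a i * swap b j * (swap b j * swap a i) := by rw [hcomm]
    _ = 1 := by
      rw [mul_assoc, ← mul_assoc (swap b j), swap_mul_self, one_mul, swap_mul_self]

/-- The 3-cycles `(a b i)` generate the alternating group. -/
theorem closure_c3 {a b : α} (hab : a ≠ b) :
    closure ((fun i => c3 a b i) '' {i | i ≠ a ∧ i ≠ b}) = alternatingGroup α := by
  set K := closure ((fun i => c3 a b i) '' {i | i ≠ a ∧ i ≠ b}) with hKdef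
  have hxK : ∀ i, i ≠ a → i ≠ b → c3 a b i ∈ K := fun i h1 h2 =>
    subset_closure ⟨i, ⟨h1, h2⟩, rfl⟩
  have hKle : K ≤ alternatingGroup α := by
    rw [hKdef, closure_le]
    rintro _ ⟨i, ⟨-, h2⟩, rfl⟩
    exact c3_mem hab h2.symm
  have hss : swap a b * swap a b = 1 := swap_mul_self a b
  have hsx : ∀ i, i ≠ a → i ≠ b → swap a b * c3 a b i * swap a b = (c3 a b i)⁻¹ := by
    intro i h1 h2
    have : (c3 a b i)⁻¹ = swap b i * swap a b := by
      rw [c3, mul_inv_rev, swap_inv, swap_inv]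
    rw [this, c3, ← mul_assoc, hss, one_mul]
  have hconj : ∀ k ∈ K, swap a b * k * swap a b ∈ K := by
    intro k hk
    induction hk using closure_induction with
    | mem x hx =>
      obtain ⟨i, ⟨h1, h2⟩, rfl⟩ := hx
      show swap a b * c3 a b i * swap a b ∈ K
      rw [hsx i h1 h2]
      exact inv_mem (hxK i h1 h2)
    | one => rw [mul_one, hss]; exact one_mem _
    | mul x y _ _ hx hy =>
      have : swap a b * (x * y) * swap a b
          = (swap a b * x * swap a b) * (swap a b * y * swap a b) := by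
        calc swap a b * (x * y) * swap a b = swap a b * x * 1 * (y * swap a b) := by
              simp only [mul_assoc, one_mul]
          _ = _ := by rw [← hss]; simp only [mul_assoc]
      rw [this]; exact mul_mem hx hy
    | inv x _ hx =>
      have : swap a b * x⁻¹ * swap a b = (swap a b * x * swap a b)⁻¹ := by
        rw [mul_inv_rev, mul_inv_rev, swap_inv, mul_assoc]
      rw [this]; exact inv_mem hx
  let N : Perm α → Prop := fun f => f ∈ K ∨ swap a b * f ∈ K
  have hmul : ∀ f g, N f → N g → N (f * g) := by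
    rintro f g (hf | hf) (hg | hg)
    · exact Or.inl (mul_mem hf hg)
    · right
      have : swap a b * (f * g) = (swap a b * f * swap a b) * (swap a b * g) := by
        calc swap a b * (f * g) = swap a b * f * 1 * g := by simp only [mul_assoc, one_mul]
          _ = _ := by rw [← hss]; simp only [mul_assoc]
      rw [this]; exact mul_mem (hconj f hf) hg
    · right
      rw [← mul_assoc]; exact mul_mem hf hg
    · left
      have : f * g = (swap a b * (swap a b * f) * swap a b) * (swap a b * g) := by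
        calc f * g = (swap a b * swap a b) * f * (swap a b * swap a b) * g := by
              rw [hss]; simp only [one_mul, mul_one]
          _ = _ := by simp only [mul_assoc]
      rw [this]; exact mul_mem (hconj _ hf) hg
  have hstar : ∀ i, i ≠ a → N (swap a i) := by
    intro i hi
    by_cases hb : i = b
    · subst hb
      right; rw [hss]; exact one_mem _
    · right
      have : swap a b * swap a i = (c3 a b i)⁻¹ := by
        rw [c3_inv hab (Ne.symm hi) (Ne.symm hb), c3]
        ext e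
        rw [mul_apply, mul_apply]
        by_cases h1 : e = a
        · subst h1
          rw [swap_apply_left, swap_apply_of_ne_of_ne hi hb, swap_apply_of_ne_of_ne hi.symm hab,
            swap_apply_left]
        by_cases h2 : e = b
        · subst h2
          rw [swap_apply_of_ne_of_ne hab.symm (Ne.symm hb), swap_apply_right, swap_apply_right,
            swap_apply_right]
        by_cases h3 : e = i
        · subst h3
          rw [swap_apply_right, swap_apply_left, swap_apply_left,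
            swap_apply_of_ne_of_ne hab.symm (Ne.symm hb)]
        rw [swap_apply_of_ne_of_ne h1 h3, swap_apply_of_ne_of_ne h1 h2,
          swap_apply_of_ne_of_ne h3 h2, swap_apply_of_ne_of_ne h1 h3]
      rw [this]; exact inv_mem (hxK i hi hb)
  have hswap : ∀ x y, x ≠ y → N (swap x y) := by
    intro x y hxy
    by_cases hx : x = a
    · subst hx; exact hstar y hxy.symm
    by_cases hy : y = a
    · subst hy; rw [swap_comm]; exact hstar x hx
    have : swap x y = swap a x * swap a y * swap a x := by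
      rw [swap_comm a y]; exact (swap_mul_swap_mul_swap hy hxy.symm).symm
    rw [this]; exact hmul _ _ (hmul _ _ (hstar x hx) (hstar y hy)) (hstar x hx)
  have hall : ∀ f : Perm α, N f := by
    intro f
    induction f using Equiv.Perm.swap_induction_on with
    | one => exact Or.inl (one_mem _)
    | swap_mul f x y hxy ih => exact hmul _ _ (hswap x y hxy) ih
  apply le_antisymm hKle
  intro f hf
  rcases hall f with h | h
  · exact h
  · exfalso
    have h1 := mem_alternatingGroup.1 (hKle h)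
    rw [map_mul, sign_swap hab, mem_alternatingGroup.1 hf] at h1
    exact absurd h1 (by decide)

/-- **Carmichael's theorem.**  Elements `x i` (`i ≠ a, b`) with `x i ^ 3 = 1` and
`(x i * x j) ^ 2 = 1` define a homomorphism from the alternating group sending `(a b i)`
to `x i`. -/
theorem exists_alt_hom {H : Type*} [Group H] {a b : α} (hab : a ≠ b) (x : α → H)
    (h3 : ∀ i, i ≠ a → i ≠ b → x i ^ 3 = 1)
    (h2 : ∀ i j, i ≠ a → i ≠ b → j ≠ a → j ≠ b → i ≠ j → (x i * x j) ^ 2 = 1) :
    ∃ f : alternatingGroup α →* H, ∀ i (_ : i ≠ a) (hib : i ≠ b),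
      f ⟨c3 a b i, c3_mem hab hib.symm⟩ = x i := by
  classical
  let s : Finset α := (Finset.univ.erase a).erase b
  have hs : ∀ i, i ∈ s ↔ i ≠ a ∧ i ≠ b := by
    intro i
    simp only [s, Finset.mem_erase, Finset.mem_univ, and_true]
    exact and_comm
  have hscard : s.card + 2 = Fintype.card α := by
    have hb : b ∈ Finset.univ.erase a := Finset.mem_erase.2 ⟨hab.symm, Finset.mem_univ _⟩
    have h1 : s.card + 1 = (Finset.univ.erase a).card := Finset.card_erase_add_one hb
    have h2 : (Finset.univ.erase a).card + 1 = (Finset.univ : Finset α).card :=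
      Finset.card_erase_add_one (Finset.mem_univ a)
    rw [Finset.card_univ] at h2
    omega
  let y : α → H × Perm α := fun i => (x i, c3 a b i)
  obtain ⟨T, hT, hc⟩ := exists_finset_closure y s
    (fun i hi => by
      obtain ⟨h1, h2'⟩ := (hs i).1 hi
      exact Prod.ext (h3 i h1 h2') (c3_pow_three hab (Ne.symm h1) (Ne.symm h2')))
    (fun i hi j hj hij => by
      obtain ⟨h1, h2'⟩ := (hs i).1 hi
      obtain ⟨h3', h4⟩ := (hs j).1 hj
      exact Prod.ext (h2 i j h1 h2' h3' h4 hij) (c3_mul_sq hab h1 h2' h3' h4 hij))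
  rw [hscard] at hc
  set Γ := closure (y '' (s : Set α)) with hΓ
  have hTΓ : ∀ g, g ∈ T ↔ g ∈ Γ := fun g => Set.ext_iff.1 hT g
  -- the image of `Γ` in `Perm α` is the alternating group
  have hmap : Γ.map (MonoidHom.snd H (Perm α)) = alternatingGroup α := by
    rw [hΓ, MonoidHom.map_closure, ← closure_c3 hab]
    congr 1
    ext g
    simp only [Set.mem_image, Finset.mem_coe, hs, Set.mem_ofPred_eq, MonoidHom.coe_snd]
    constructor
    · rintro ⟨_, ⟨i, hi, rfl⟩, rfl⟩; exact ⟨i, hi, rfl⟩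
    · rintro ⟨i, hi, rfl⟩; exact ⟨_, ⟨i, hi, rfl⟩, rfl⟩
  -- counting
  have himg : T.image Prod.snd = (alternatingGroup α : Set (Perm α)).toFinset := by
    ext g
    rw [Finset.mem_image, Set.mem_toFinset, SetLike.mem_coe, ← hmap]
    constructor
    · rintro ⟨t, ht, rfl⟩
      exact ⟨t, (hTΓ t).1 ht, rfl⟩
    · rintro ⟨t, ht, rfl⟩
      exact ⟨t, (hTΓ t).2 ht, rfl⟩
  have : Nontrivial α := ⟨⟨a, b, hab⟩⟩
  have hcardA : 2 * (T.image Prod.snd).card = (Fintype.card α).factorial := by
    rw [himg, Set.toFinset_card, ← Fintype.card_perm, ← two_mul_card_alternatingGroup]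
    congr 1
    exact Fintype.card_congr (Equiv.refl _)
  have hcardle : (T.image Prod.snd).card ≤ T.card := Finset.card_image_le
  have hinjT : Set.InjOn Prod.snd (T : Set (H × Perm α)) :=
    Finset.card_image_iff.1 (le_antisymm hcardle (by omega))
  have hinj : ∀ g ∈ Γ, ∀ g' ∈ Γ, g.2 = g'.2 → g = g' := fun g hg g' hg' h =>
    hinjT (Finset.mem_coe.2 ((hTΓ g).2 hg)) (Finset.mem_coe.2 ((hTΓ g').2 hg')) h
  have hsurj : ∀ σ : alternatingGroup α, ∃ g ∈ Γ, g.2 = (σ : Perm α) := by
    intro σ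
    have h : (σ : Perm α) ∈ Γ.map (MonoidHom.snd H (Perm α)) := by rw [hmap]; exact σ.2
    obtain ⟨g, hg, he⟩ := h
    exact ⟨g, hg, he⟩
  choose φ hφ1 hφ2 using hsurj
  refine ⟨{ toFun := fun σ => (φ σ).1
            map_one' := ?_
            map_mul' := ?_ }, ?_⟩
  · have : φ 1 = 1 := hinj _ (hφ1 1) 1 (one_mem _) (by rw [hφ2]; rfl)
    rw [this]; rfl
  · intro σ τ
    have : φ (σ * τ) = φ σ * φ τ := hinj _ (hφ1 _) _ (mul_mem (hφ1 σ) (hφ1 τ))
      (by rw [hφ2, Prod.snd_mul, hφ2, hφ2]; rfl)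
    rw [this]; rfl
  · intro i hia hib
    have : φ ⟨c3 a b i, c3_mem hab hib.symm⟩ = y i :=
      hinj _ (hφ1 _) _ (subset_closure ⟨i, Finset.mem_coe.2 ((hs i).2 ⟨hia, hib⟩), rfl⟩)
        (by rw [hφ2])
    show (φ _).1 = x i
    rw [this]

/-- Two homomorphisms from the alternating group that agree on the 3-cycles `(a b i)` agree. -/
theorem alt_hom_ext {H : Type*} [Group H] {a b : α} (hab : a ≠ b)
    {f g : alternatingGroup α →* H}
    (h : ∀ i (_ : i ≠ a) (hib : i ≠ b), f ⟨c3 a b i, c3_mem hab hib.symm⟩ =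
      g ⟨c3 a b i, c3_mem hab hib.symm⟩) : f = g := by
  have key : ∀ k (hk : k ∈ alternatingGroup α), f ⟨k, hk⟩ = g ⟨k, hk⟩ := by
    intro k hk
    have hk' := hk
    rw [← closure_c3 hab] at hk'
    induction hk' using closure_induction with
    | mem x hx =>
      obtain ⟨i, ⟨h1, h2⟩, rfl⟩ := hx
      exact h i h1 h2
    | one =>
      have : (⟨1, hk⟩ : alternatingGroup α) = 1 := rfl
      rw [this, map_one, map_one]
    | mul x y hx hy ihx ihy =>
      rw [closure_c3 hab] at hx hy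
      have : (⟨x * y, hk⟩ : alternatingGroup α) = ⟨x, hx⟩ * ⟨y, hy⟩ := rfl
      rw [this, map_mul, map_mul, ihx hx, ihy hy]
    | inv x hx ihx =>
      rw [closure_c3 hab] at hx
      have : (⟨x⁻¹, hk⟩ : alternatingGroup α) = ⟨x, hx⟩⁻¹ := rfl
      rw [this, map_inv, map_inv, ihx hx]
  ext ⟨k, hk⟩
  exact key k hk

/-- Kernel control.  If `π : H →* Perm α` sends `x i` to `(a b i)` and the Carmichael relators
lie in a normal subgroup `N`, then every element of `⟨x i⟩ N` in the kernel of `π` lies in `N`. -/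
theorem mem_of_map_eq_one {H : Type*} [Group H] {a b : α} (hab : a ≠ b) (x : α → H)
    (N : Subgroup H) [N.Normal] (π : H →* Perm α) (hN : N ≤ π.ker)
    (hπ : ∀ i, i ≠ a → i ≠ b → π (x i) = c3 a b i)
    (h3 : ∀ i, i ≠ a → i ≠ b → x i ^ 3 ∈ N)
    (h2 : ∀ i j, i ≠ a → i ≠ b → j ≠ a → j ≠ b → i ≠ j → (x i * x j) ^ 2 ∈ N)
    {g : H} (hg : g ∈ closure (x '' {i | i ≠ a ∧ i ≠ b}) ⊔ N) (hg1 : π g = 1) : g ∈ N := by
  obtain ⟨f, hf⟩ := exists_alt_hom (H := H ⧸ N) hab (fun i => (x i : H ⧸ N))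
    (fun i h1 h2' => by
      rw [← QuotientGroup.mk_pow]; exact (QuotientGroup.eq_one_iff _).2 (h3 i h1 h2'))
    (fun i j a1 a2 a3 a4 a5 => by
      rw [← QuotientGroup.mk_mul, ← QuotientGroup.mk_pow]
      exact (QuotientGroup.eq_one_iff _).2 (h2 i j a1 a2 a3 a4 a5))
  -- every element of `⟨x⟩ N` is `f (π g)` modulo `N`
  have key : ∀ g ∈ closure (x '' {i | i ≠ a ∧ i ≠ b}) ⊔ N,
      ∃ σ : alternatingGroup α, π g = (σ : Perm α) ∧ (g : H ⧸ N) = f σ := by
    let S : Subgroup H :=
      { carrier := {g | ∃ σ : alternatingGroup α, π g = (σ : Perm α) ∧ (g : H ⧸ N) = f σ}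
        one_mem' := ⟨1, by rw [map_one]; rfl, by rw [map_one]; rfl⟩
        mul_mem' := by
          rintro g g' ⟨σ, h1, h1'⟩ ⟨τ, h2, h2'⟩
          exact ⟨σ * τ, by rw [map_mul, h1, h2]; rfl,
            by rw [QuotientGroup.mk_mul, map_mul, h1', h2']⟩
        inv_mem' := by
          rintro g ⟨σ, h1, h1'⟩
          exact ⟨σ⁻¹, by rw [map_inv, h1]; rfl, by rw [QuotientGroup.mk_inv, map_inv, h1']⟩ }
    have hS : closure (x '' {i | i ≠ a ∧ i ≠ b}) ⊔ N ≤ S := by
      apply sup_le
      · rw [closure_le]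
        rintro _ ⟨i, ⟨h1, h2'⟩, rfl⟩
        exact ⟨⟨c3 a b i, c3_mem hab h2'.symm⟩, hπ i h1 h2', (hf i h1 h2').symm⟩
      · intro g hg
        exact ⟨1, MonoidHom.mem_ker.1 (hN hg), by
          rw [map_one]; exact (QuotientGroup.eq_one_iff _).2 hg⟩
    exact fun g hg => hS hg
  obtain ⟨σ, hσ, he⟩ := key g hg
  have : σ = 1 := Subtype.ext (by rw [← hσ, hg1]; rfl)
  rw [this, map_one] at he
  exact (QuotientGroup.eq_one_iff _).1 he

/-- The 3-cycle `a → b → c → a` as an element of the alternating group (junk value `1`). -/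
def C (a b c : α) : alternatingGroup α :=
  if h : a ≠ b ∧ b ≠ c then ⟨c3 a b c, c3_mem h.1 h.2⟩ else 1

theorem coe_C {a b c : α} (hab : a ≠ b) (hbc : b ≠ c) : (C a b c : Perm α) = c3 a b c := by
  rw [C, dif_pos ⟨hab, hbc⟩]

theorem C_rotate {a b c : α} (hab : a ≠ b) (hac : a ≠ c) (hbc : b ≠ c) : C b c a = C a b c :=
  Subtype.ext (by rw [coe_C hab hbc, coe_C hbc hac.symm, c3_rotate hab hac hbc])

theorem C_inv {a b c : α} (hab : a ≠ b) (hac : a ≠ c) (hbc : b ≠ c) : C a c b = (C a b c)⁻¹ :=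
  Subtype.ext (by
    rw [Subgroup.coe_inv, coe_C hab hbc, coe_C hac hbc.symm, c3_inv hab hac hbc])

theorem C_pow_three {a b c : α} (hab : a ≠ b) (hac : a ≠ c) (hbc : b ≠ c) : C a b c ^ 3 = 1 :=
  Subtype.ext (by rw [Subgroup.coe_pow, coe_C hab hbc, c3_pow_three hab hac hbc]; rfl)

theorem C_R {a b c d : α} (hab : a ≠ b) (hac : a ≠ c) (had : a ≠ d) (hbc : b ≠ c)
    (hbd : b ≠ d) (hcd : c ≠ d) : C a b c * C a c d = C b c d :=
  Subtype.ext (by
    rw [Subgroup.coe_mul, coe_C hab hbc, coe_C hac hcd, coe_C hbc hcd,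
      c3_R hab hac had hbc hbd hcd])

/-- Conjugation of 3-cycles. -/
theorem C_conj {a b c : α} (hab : a ≠ b) (hbc : b ≠ c) (σ : alternatingGroup α) :
    σ * C a b c * σ⁻¹ = C ((σ : Perm α) a) ((σ : Perm α) b) ((σ : Perm α) c) :=
  Subtype.ext (by
    have h1 : (σ : Perm α) a ≠ (σ : Perm α) b := fun h => hab ((σ : Perm α).injective h)
    have h2 : (σ : Perm α) b ≠ (σ : Perm α) c := fun h => hbc ((σ : Perm α).injective h)
    rw [Subgroup.coe_mul, Subgroup.coe_mul, Subgroup.coe_inv, coe_C hab hbc, coe_C h1 h2,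
      c3, c3, swap_apply_apply, swap_apply_apply]
    simp only [mul_assoc, inv_mul_cancel_left])

theorem sq_of_braid {G : Type*} [Group G] {u v : G} (hu : u ^ 3 = 1) (huv : (u * v) ^ 3 = 1)
    (hbr : u * v * u = v * u * v) : (v * u⁻¹) ^ 2 = 1 := by
  have h1 : v * u⁻¹ = u⁻¹ * (u * v * u) * u := by
    rw [inv_eq_sq hu, pow_two]
    have : u * u * u = 1 := by rw [← hu, pow_succ, pow_two]
    calc v * (u * u) = 1 * v * (u * u) := by rw [one_mul]
      _ = (u * u * u) * v * (u * u) := by rw [this]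
      _ = _ := by simp only [mul_assoc]
  have h2 : (u * v * u) * (u * v * u) = 1 := by
    calc (u * v * u) * (u * v * u) = (u * v * u) * (v * u * v) := by rw [hbr]
      _ = (u * v) ^ 3 := by rw [pow_succ, pow_two]; simp only [mul_assoc]
      _ = 1 := huv
  have h3 : (v * u⁻¹) ^ 2 = u⁻¹ * ((u * v * u) * (u * v * u)) * u := by
    rw [pow_two]
    calc v * u⁻¹ * (v * u⁻¹) = (u⁻¹ * (u * v * u) * u) * (u⁻¹ * (u * v * u) * u) := by rw [← h1]
      _ = _ := by simp only [mul_assoc, mul_inv_cancel_left]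
  rw [h3, h2, mul_one, inv_mul_cancel]

/-- Version with all 3-cycles: a family `t a b c` with the cyclic, inverse, cube relations and
`t a b c * t a c d = t b c d` comes from a homomorphism `C a b c ↦ t a b c`. -/
theorem exists_alt_hom_of_R {H : Type*} [Group H] [Nontrivial α] (t : α → α → α → H)
    (hcyc : ∀ a b c, a ≠ b → a ≠ c → b ≠ c → t b c a = t a b c)
    (hinv : ∀ a b c, a ≠ b → a ≠ c → b ≠ c → t a c b = (t a b c)⁻¹)
    (hcube : ∀ a b c, a ≠ b → a ≠ c → b ≠ c → t a b c ^ 3 = 1)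
    (hR : ∀ a b c d, a ≠ b → a ≠ c → a ≠ d → b ≠ c → b ≠ d → c ≠ d →
      t a b c * t a c d = t b c d) :
    ∃ f : alternatingGroup α →* H, ∀ a b c, a ≠ b → a ≠ c → b ≠ c → f (C a b c) = t a b c := by
  obtain ⟨a, b, hab⟩ := exists_pair_ne α
  obtain ⟨f, hf⟩ := exists_alt_hom hab (t a b)
    (fun i h1 h2 => hcube a b i hab h1.symm h2.symm)
    (fun i j h1 h2 h3 h4 h5 => by
      have e0 : t a b j = (t a j b)⁻¹ := hinv a j b h3.symm hab h4
      have e1 : t a j b * t a b i = t j b i := hR a j b i h3.symm hab h1.symm h4 h5.symm h2.symm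
      have e2 : t a b i * t a i j = t j b i := by
        rw [hR a b i j hab h1.symm h3.symm h2.symm h4.symm h5, hcyc j b i h4 h5.symm h2.symm]
      have e3 : t a i j * t a j b = t j b i := by
        rw [hR a i j b h1.symm h3.symm hab h5 h2 h4, hcyc i j b h5 h2 h4]
      rw [e0]
      refine sq_of_braid (hcube a j b h3.symm hab h4) ?_ ?_
      · rw [e1]; exact hcube j b i h4 h5.symm h2.symm
      · calc t a j b * t a b i * t a j b = t a b i * t a i j * t a j b := by rw [e1, e2]
          _ = t a b i * (t a j b * t a b i) := by rw [mul_assoc, e3, e1]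
          _ = _ := by rw [mul_assoc])
  refine ⟨f, ?_⟩
  have rot : ∀ p q r, p ≠ q → p ≠ r → q ≠ r → f (C p q r) = t p q r → f (C q r p) = t q r p := by
    intro p q r h1 h2 h3 h
    rw [C_rotate h1 h2 h3, hcyc p q r h1 h2 h3, h]
  have inv : ∀ p q r, p ≠ q → p ≠ r → q ≠ r → f (C p q r) = t p q r → f (C p r q) = t p r q := by
    intro p q r h1 h2 h3 h
    rw [C_inv h1 h2 h3, hinv p q r h1 h2 h3, map_inv, h]
  have comp : ∀ p q r s, p ≠ q → p ≠ r → p ≠ s → q ≠ r → q ≠ s → r ≠ s →
      f (C p q r) = t p q r → f (C p r s) = t p r s → f (C q r s) = t q r s := by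
    intro p q r s h1 h2 h3 h4 h5 h6 h h'
    rw [← C_R h1 h2 h3 h4 h5 h6, map_mul, h, h', hR p q r s h1 h2 h3 h4 h5 h6]
  have g0 : ∀ i, i ≠ a → i ≠ b → f (C a b i) = t a b i := by
    intro i h1 h2
    rw [← hf i h1 h2, C, dif_pos ⟨hab, h2.symm⟩]
  -- all triples containing `a` and `b`
  have g1 : ∀ i, i ≠ a → i ≠ b → f (C b i a) = t b i a := fun i h1 h2 =>
    rot _ _ _ hab h1.symm h2.symm (g0 i h1 h2)
  have g2 : ∀ i, i ≠ a → i ≠ b → f (C i a b) = t i a b := fun i h1 h2 =>
    rot _ _ _ h2.symm hab.symm h1 (g1 i h1 h2)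
  have g3 : ∀ i, i ≠ a → i ≠ b → f (C a i b) = t a i b := fun i h1 h2 =>
    inv _ _ _ hab h1.symm h2.symm (g0 i h1 h2)
  have g4 : ∀ i, i ≠ a → i ≠ b → f (C b a i) = t b a i := fun i h1 h2 =>
    inv _ _ _ h2.symm hab.symm h1 (g1 i h1 h2)
  have g5 : ∀ i, i ≠ a → i ≠ b → f (C i b a) = t i b a := fun i h1 h2 =>
    inv _ _ _ h1 h2 hab (g2 i h1 h2)
  -- triples containing `a`, not `b`
  have k1 : ∀ i j, i ≠ a → i ≠ b → j ≠ a → j ≠ b → i ≠ j → f (C i a j) = t i a j :=
    fun i j h1 h2 h3 h4 h5 => comp b i a j h2.symm hab.symm h4.symm h1 h5 h3.symm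
      (g1 i h1 h2) (g4 j h3 h4)
  have k2 : ∀ i j, i ≠ a → i ≠ b → j ≠ a → j ≠ b → i ≠ j → f (C a i j) = t a i j :=
    fun i j h1 h2 h3 h4 h5 => rot j a i h3 h5.symm h1.symm (k1 j i h3 h4 h1 h2 h5.symm)
  have k3 : ∀ i j, i ≠ a → i ≠ b → j ≠ a → j ≠ b → i ≠ j → f (C i j a) = t i j a :=
    fun i j h1 h2 h3 h4 h5 => rot a i j h1.symm h3.symm h5 (k2 i j h1 h2 h3 h4 h5)
  -- triples containing `b`, not `a`
  have l1 : ∀ i j, i ≠ a → i ≠ b → j ≠ a → j ≠ b → i ≠ j → f (C i b j) = t i b j :=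
    fun i j h1 h2 h3 h4 h5 => comp a i b j h1.symm hab h3.symm h2 h5 h4.symm
      (g3 i h1 h2) (g0 j h3 h4)
  have l2 : ∀ i j, i ≠ a → i ≠ b → j ≠ a → j ≠ b → i ≠ j → f (C b i j) = t b i j :=
    fun i j h1 h2 h3 h4 h5 => rot j b i h4 h5.symm h2.symm (l1 j i h3 h4 h1 h2 h5.symm)
  have l3 : ∀ i j, i ≠ a → i ≠ b → j ≠ a → j ≠ b → i ≠ j → f (C i j b) = t i j b :=
    fun i j h1 h2 h3 h4 h5 => rot b i j h2.symm h4.symm h5 (l2 i j h1 h2 h3 h4 h5)
  intro p q r hpq hpr hqr
  by_cases pa : p = a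
  · subst pa
    by_cases qb : q = b
    · subst qb; exact g0 r hpr.symm hqr.symm
    by_cases rb : r = b
    · subst rb; exact g3 q hpq.symm qb
    exact k2 q r hpq.symm qb hpr.symm rb hqr
  by_cases pb : p = b
  · subst pb
    by_cases qa : q = a
    · subst qa; exact g4 r hqr.symm hpr.symm
    by_cases ra : r = a
    · subst ra; exact g1 q qa hpq.symm
    exact l2 q r qa hpq.symm ra hpr.symm hqr
  by_cases qa : q = a
  · subst qa
    by_cases rb : r = b
    · subst rb; exact g2 p pa pb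
    exact k1 p r pa pb hqr.symm rb hpr
  by_cases qb : q = b
  · subst qb
    by_cases ra : r = a
    · subst ra; exact g5 p pa pb
    exact l1 p r pa pb ra hqr.symm hpr
  by_cases ra : r = a
  · subst ra; exact k3 p q pa pb qa qb hpq
  by_cases rb : r = b
  · subst rb; exact l3 p q pa pb qa qb hpq
  exact comp a p q r (Ne.symm pa) (Ne.symm qa) (Ne.symm ra) hpq hpr hqr
    (k2 p q pa pb qa qb hpq) (k2 q r qa qb ra rb hqr)

end Vale.Agent.P196.H798
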