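import Mathlib.GroupTheory.SpecificGroups.Alternating
import Mathlib.GroupTheory.PresentedGroup
import Mathlib.GroupTheory.Index

/-!
Carmichael's presentation of the alternating groups (block A1 of P196).
-/

namespace Vale.Agent.P196.H798

open Subgroup Equiv Equiv.Perm

section Identities

variable {G : Type*} [Group G]

theorem inv_eq_sq {y : G} (hy : y ^ 3 = 1) : y⁻¹ = y ^ 2 := by
  have : y * y ^ 2 = 1 := by rw [← pow_succ']; exact hy
  exact inv_eq_of_mul_eq_one_right this

theorem mul_eq_inv_mul_inv {y u : G} (h : (y * u) ^ 2 = 1) : y * u = u⁻¹ * y⁻¹ := by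
  have h2 : (y * u) * (y * u) = 1 := by rw [← pow_two]; exact h
  have h3 : (y * u)⁻¹ = y * u := inv_eq_of_mul_eq_one_right h2
  rw [← h3, mul_inv_rev]

theorem sq_swap {y u : G} (h : (y * u) ^ 2 = 1) : (u * y) ^ 2 = 1 := by
  have h2 : (y * u) * (y * u) = 1 := by rw [← pow_two]; exact h
  have : (u * y) ^ 2 = y⁻¹ * ((y * u) * (y * u)) * y := by
    rw [pow_two]; group
  rw [this, h2]; group

/-- `y x = x⁻¹ y²`. -/
theorem id1 {y u : G} (hy : y ^ 3 = 1) (h : (y * u) ^ 2 = 1) : y * u = u⁻¹ * y ^ 2 := by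
  rw [mul_eq_inv_mul_inv h, inv_eq_sq hy]

/-- `y² u u = u y`. -/
theorem id2 {y u : G} (hy : y ^ 3 = 1) (hu : u ^ 3 = 1) (h : (y * u) ^ 2 = 1) :
    y ^ 2 * u * u = u * y := by
  have e1 : u * y = y⁻¹ * u⁻¹ := mul_eq_inv_mul_inv (sq_swap h)
  rw [e1, inv_eq_sq hy, inv_eq_sq hu, mul_assoc, pow_two u]

/-- `y u⁻¹ = u⁻¹ (y² u)`. -/
theorem id3 {y u : G} (hy : y ^ 3 = 1) (hu : u ^ 3 = 1) (h : (y * u) ^ 2 = 1) :
    y * u⁻¹ = u⁻¹ * (y ^ 2 * u) := by
  have h2 : (y * u) * (y * u) = 1 := by rw [← pow_two]; exact h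
  have h4 : y * u * y = u⁻¹ := by
    apply eq_inv_of_mul_eq_one_left
    rw [← h2]; group
  have h5 : u⁻¹ * u⁻¹ = u := by
    have : u⁻¹ * u⁻¹ = (u ^ 3)⁻¹ * u := by group
    rw [this, hu]; simp
  have h6 : y * u⁻¹ * (u⁻¹ * y) = u⁻¹ := by
    calc y * u⁻¹ * (u⁻¹ * y) = y * (u⁻¹ * u⁻¹) * y := by group
      _ = y * u * y := by rw [h5]
      _ = u⁻¹ := h4
  have h7 : y * u⁻¹ = u⁻¹ * (u⁻¹ * y)⁻¹ := by
    rw [eq_mul_inv_iff_mul_eq]; exact h6
  rw [h7, mul_inv_rev, inv_inv, inv_eq_sq hy]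

/-- `y² u v = (v u⁻¹) (y² u)`. -/
theorem id4 {y u v : G} (hy : y ^ 3 = 1) (hu : u ^ 3 = 1) (h : (y * u) ^ 2 = 1)
    (hv : (y * v) ^ 2 = 1) (huv : (u * v) ^ 2 = 1) :
    y ^ 2 * u * v = (v * u⁻¹) * (y ^ 2 * u) := by
  have e1 : u * v = v⁻¹ * u⁻¹ := mul_eq_inv_mul_inv huv
  have e2 : v * y = y⁻¹ * v⁻¹ := mul_eq_inv_mul_inv (sq_swap hv)
  have e3 := id3 hy hu h
  calc y ^ 2 * u * v = y⁻¹ * (u * v) := by rw [← inv_eq_sq hy, mul_assoc]
    _ = y⁻¹ * v⁻¹ * u⁻¹ := by rw [e1, mul_assoc]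
    _ = v * (y * u⁻¹) := by rw [← e2, mul_assoc]
    _ = (v * u⁻¹) * (y ^ 2 * u) := by rw [e3, mul_assoc]

/-- `y² u y = u⁻¹ (y² u)`. -/
theorem id5 {y u : G} (hy : y ^ 3 = 1) (hu : u ^ 3 = 1) (h : (y * u) ^ 2 = 1) :
    y ^ 2 * u * y = u⁻¹ * (y ^ 2 * u) := by
  have e1 : u * y = y⁻¹ * u⁻¹ := mul_eq_inv_mul_inv (sq_swap h)
  rw [mul_assoc, e1, ← mul_assoc, ← id3 hy hu h]
  congr 1
  rw [pow_two]; group

end Identities

section Bound

variable {G : Type*} [Group G] {ι : Type*}

open Classical in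
/-- The subgroup generated by elements satisfying Carmichael's relations has order at most
`(k+2)!/2`. -/
theorem exists_finset_closure (x : ι → G) (s : Finset ι)
    (h3 : ∀ i ∈ s, x i ^ 3 = 1) (h2 : ∀ i ∈ s, ∀ j ∈ s, i ≠ j → (x i * x j) ^ 2 = 1) :
    ∃ T : Finset G, (T : Set G) = closure (x '' (s : Set ι)) ∧
      T.card * 2 ≤ (s.card + 2).factorial := by
  induction s using Finset.induction_on with
  | empty =>
    refine ⟨{1}, ?_, ?_⟩
    · simp
    · simp
  | insert n s hn ih =>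
    obtain ⟨T, hT, hc⟩ := ih (fun i hi => h3 i (Finset.mem_insert_of_mem hi))
      (fun i hi j hj => h2 i (Finset.mem_insert_of_mem hi) j (Finset.mem_insert_of_mem hj))
    set y := x n with hy
    have hy3 : y ^ 3 = 1 := h3 n (Finset.mem_insert_self _ _)
    have hx3 : ∀ i ∈ s, x i ^ 3 = 1 := fun i hi => h3 i (Finset.mem_insert_of_mem hi)
    have hyx : ∀ i ∈ s, (y * x i) ^ 2 = 1 := fun i hi =>
      h2 n (Finset.mem_insert_self _ _) i (Finset.mem_insert_of_mem hi)
        (fun h => hn (h ▸ hi))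
    have hxx : ∀ i ∈ s, ∀ j ∈ s, i ≠ j → (x i * x j) ^ 2 = 1 := fun i hi j hj =>
      h2 i (Finset.mem_insert_of_mem hi) j (Finset.mem_insert_of_mem hj)
    let R : Finset G := {1, y, y ^ 2} ∪ s.image (fun j => y ^ 2 * x j)
    have hRc : R.card ≤ s.card + 3 := by
      refine (Finset.card_union_le _ _).trans ?_
      have a1 : ({1, y, y ^ 2} : Finset G).card ≤ 3 := Finset.card_le_three
      have a2 : (s.image (fun j => y ^ 2 * x j)).card ≤ s.card := Finset.card_image_le
      omega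
    have hTK : ∀ g, g ∈ T ↔ g ∈ closure (x '' (s : Set ι)) := by
      intro g
      exact Set.ext_iff.1 hT g
    have hK : ∀ i ∈ s, x i ∈ closure (x '' (s : Set ι)) := fun i hi =>
      subset_closure ⟨i, hi, rfl⟩
    let T' : Finset G := (T ×ˢ R).image (fun p => p.1 * p.2)
    have hmem : ∀ g, g ∈ T' ↔ ∃ k ∈ closure (x '' (s : Set ι)), ∃ r ∈ R, k * r = g := by
      intro g
      simp only [T', Finset.mem_image, Finset.mem_product, Prod.exists, hTK]
      constructor
      · rintro ⟨a, b, ⟨ha, hb⟩, rfl⟩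
        exact ⟨a, ha, b, hb, rfl⟩
      · rintro ⟨a, ha, b, hb, rfl⟩
        exact ⟨a, b, ⟨ha, hb⟩, rfl⟩
    have hR1 : (1 : G) ∈ R := by simp [R]
    have hRy : y ∈ R := by simp [R]
    have hRy2 : y ^ 2 ∈ R := by simp [R]
    have hRj : ∀ j ∈ s, y ^ 2 * x j ∈ R := fun j hj =>
      Finset.mem_union_right _ (Finset.mem_image_of_mem _ hj)
    -- closure under right multiplication by generators
    have hstep : ∀ r ∈ R, ∀ i ∈ insert n s,
        ∃ k ∈ closure (x '' (s : Set ι)), ∃ r' ∈ R, k * r' = r * x i := by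
      intro r hr i hi
      rcases Finset.mem_insert.1 hi with rfl | his
      · -- multiplication by y
        rcases Finset.mem_union.1 hr with hr | hr
        · simp only [Finset.mem_insert, Finset.mem_singleton] at hr
          rcases hr with rfl | rfl | rfl
          · exact ⟨1, one_mem _, y, hRy, by simp [hy]⟩
          · exact ⟨1, one_mem _, y ^ 2, hRy2, by rw [one_mul, pow_two]⟩
          · exact ⟨1, one_mem _, 1, hR1, by rw [one_mul, ← hy, ← pow_succ, hy3]⟩
        · obtain ⟨j, hj, rfl⟩ := Finset.mem_image.1 hr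
          exact ⟨(x j)⁻¹, inv_mem (hK j hj), y ^ 2 * x j, hRj j hj,
            (id5 hy3 (hx3 j hj) (hyx j hj)).symm⟩
      · rcases Finset.mem_union.1 hr with hr | hr
        · simp only [Finset.mem_insert, Finset.mem_singleton] at hr
          rcases hr with rfl | rfl | rfl
          · exact ⟨x i, hK i his, 1, hR1, by simp⟩
          · exact ⟨(x i)⁻¹, inv_mem (hK i his), y ^ 2, hRy2, (id1 hy3 (hyx i his)).symm⟩
          · exact ⟨1, one_mem _, y ^ 2 * x i, hRj i his, by rw [one_mul]⟩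
        · obtain ⟨j, hj, rfl⟩ := Finset.mem_image.1 hr
          by_cases hij : j = i
          · subst hij
            exact ⟨x j, hK j hj, y, hRy, (id2 hy3 (hx3 j hj) (hyx j hj)).symm⟩
          · exact ⟨x i * (x j)⁻¹, mul_mem (hK i his) (inv_mem (hK j hj)), y ^ 2 * x j, hRj j hj,
              (id4 hy3 (hx3 j hj) (hyx j hj) (hyx i his) (hxx j hj i his hij)).symm⟩
    have hstep' : ∀ g ∈ T', ∀ i ∈ insert n s, g * x i ∈ T' := by
      intro g hg i hi
      obtain ⟨k, hk, r, hr, rfl⟩ := (hmem g).1 hg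
      obtain ⟨k', hk', r', hr', he⟩ := hstep r hr i hi
      exact (hmem _).2 ⟨k * k', mul_mem hk hk', r', hr', by rw [mul_assoc, he, mul_assoc]⟩
    refine ⟨T', ?_, ?_⟩
    · apply Set.Subset.antisymm
      · intro g hg
        obtain ⟨k, hk, r, hr, rfl⟩ := (hmem g).1 (Finset.mem_coe.1 hg)
        have hle : closure (x '' (s : Set ι)) ≤ closure (x '' ((insert n s : Finset ι) : Set ι)) :=
          closure_mono (Set.image_mono (by simp))
        have hyK : y ∈ closure (x '' ((insert n s : Finset ι) : Set ι)) :=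
          subset_closure ⟨n, by simp, rfl⟩
        have hjK : ∀ j ∈ s, x j ∈ closure (x '' ((insert n s : Finset ι) : Set ι)) :=
          fun j hj => subset_closure ⟨j, by simp [hj], rfl⟩
        refine mul_mem (hle hk) ?_
        rcases Finset.mem_union.1 hr with hr | hr
        · simp only [Finset.mem_insert, Finset.mem_singleton] at hr
          rcases hr with rfl | rfl | rfl
          · exact one_mem _
          · exact hyK
          · exact pow_mem hyK 2
        · obtain ⟨j, hj, rfl⟩ := Finset.mem_image.1 hr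
          exact mul_mem (pow_mem hyK 2) (hjK j hj)
      · intro g hg
        have hg' : g ∈ closure (x '' ((insert n s : Finset ι) : Set ι)) := hg
        induction hg' using closure_induction_right with
        | one => exact Finset.mem_coe.2 ((hmem 1).2 ⟨1, one_mem _, 1, hR1, by simp⟩)
        | mul_right g hg0 z hz ihg =>
          obtain ⟨i, hi, rfl⟩ := hz
          exact Finset.mem_coe.2 (hstep' g (Finset.mem_coe.1 (ihg hg0)) i (Finset.mem_coe.1 hi))
        | mul_inv_cancel g hg0 z hz ihg =>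
          obtain ⟨i, hi, rfl⟩ := hz
          have hi' : i ∈ insert n s := Finset.mem_coe.1 hi
          rw [inv_eq_sq (h3 i hi'), pow_two, ← mul_assoc]
          exact Finset.mem_coe.2 (hstep' _ (hstep' g (Finset.mem_coe.1 (ihg hg0)) i hi') i hi')
    · have b1 : T'.card ≤ T.card * R.card :=
        Finset.card_image_le.trans (by rw [Finset.card_product])
      rw [Finset.card_insert_of_notMem hn]
      calc T'.card * 2 ≤ T.card * R.card * 2 := Nat.mul_le_mul_right _ b1
        _ = (T.card * 2) * R.card := by ring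
        _ ≤ (s.card + 2).factorial * (s.card + 3) := Nat.mul_le_mul hc hRc
        _ = (s.card + 1 + 2).factorial := by
            rw [show s.card + 1 + 2 = (s.card + 2) + 1 from by omega,
              Nat.factorial_succ (s.card + 2), Nat.mul_comm]

end Bound

end Vale.Agent.P196.H798
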