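import Vale.Agent.P196.Cut.Defs
import Vale.Agent.P196.Cut.Sgn

/-!
Block S-DEC of P196, part 1: membership criteria for the group of a cell system.
-/

noncomputable section

namespace Vale.Agent.P196.H798

open Equiv Vale.Agent.P196.S0 Vale.Agent.P196.Cut

variable {N : ℤ} {J Θ : Type} {ι : Type}

/-- `u` lies in the cell `(j, p)` iff `u - N p ∈ D j`. -/
theorem CS.sub_mem_D (C : CS N J Θ) {j : J} {p u : Z2} :
    u - N • p ∈ C.D j ↔ C.anch u = p ∧ C.lab u = some j := by
  rw [C.mem_D]
  have h1 : C.anch (u - N • p) = C.anch u - p := by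
    have := C.anch_add u (-p)
    rw [smul_neg, ← sub_eq_add_neg, ← sub_eq_add_neg] at this
    exact this
  have h2 : C.lab (u - N • p) = C.lab u := by
    have := C.lab_add u (-p)
    rw [smul_neg, ← sub_eq_add_neg] at this
    exact this
  rw [h1, h2, sub_eq_zero]

theorem blow_off (C : CS N J Θ) (j : J) (θ : Θ) (σ : Perm (C.D j × ι)) {u : Z2} {f : ι}
    (h : ¬ (C.lab u = some j ∧ C.typ j (C.anch u) = θ)) :
    blow (C.E j θ) (C.D j) (C.small j θ) σ (u, f) = (u, f) := by
  apply blow_eq_self
  intro v hv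
  exfalso
  obtain ⟨p, hp, hpt⟩ := hv
  apply h
  have h1 : u - N • p ∈ C.D j := by
    rw [← hp, sub_sub_cancel]; exact v.2
  obtain ⟨h2, h3⟩ := (CS.sub_mem_D C).1 h1
  rw [h2]
  exact ⟨h3, hpt⟩

theorem blow_on (C : CS N J Θ) (j : J) (p : Z2) (σ : Perm (C.D j × ι)) (d : C.D j) (f : ι) :
    blow (C.E j (C.typ j p)) (C.D j) (C.small j (C.typ j p)) σ (N • p + (d : Z2), f) =
      (N • p + ((σ (d, f)).1 : Z2), (σ (d, f)).2) :=
  blow_apply (C.small j (C.typ j p)) σ ⟨p, rfl, rfl⟩ (d, f)

variable [Fintype ι] [DecidableEq ι]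

open Classical in
/-- Criterion: `g` acts on the cells through alternating permutations depending on the type. -/
theorem mem_G_of_perm (C : CS N J Θ) [Fintype J] [Fintype Θ]
    (σ : ∀ (j : J) (_ : Θ), Perm (C.D j × ι)) (hσ : ∀ j θ, σ j θ ∈ alternatingGroup (C.D j × ι))
    (g : Perm (Z2 × ι))
    (h1 : ∀ u f, C.lab u = none → g (u, f) = (u, f))
    (h2 : ∀ j p (d : C.D j) f, g (N • p + (d : Z2), f) =
      (N • p + ((σ j (C.typ j p) (d, f)).1 : Z2), (σ j (C.typ j p) (d, f)).2)) :
    g ∈ C.G ι := by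
  -- induction over the set of types on which `g` acts
  have key : ∀ s : Finset (J × Θ), ∀ g : Perm (Z2 × ι),
      (∀ u f, (∀ j, C.lab u = some j → (j, C.typ j (C.anch u)) ∉ s) → g (u, f) = (u, f)) →
      (∀ j p (d : C.D j) f, (j, C.typ j p) ∈ s → g (N • p + (d : Z2), f) =
        (N • p + ((σ j (C.typ j p) (d, f)).1 : Z2), (σ j (C.typ j p) (d, f)).2)) →
      g ∈ C.G ι := by
    intro s
    induction s using Finset.induction_on with
    | empty =>
      intro g h1 _
      have : g = 1 := by
        ext1 ⟨u, f⟩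
        exact h1 u f (fun j _ => Finset.notMem_empty _)
      rw [this]; exact one_mem _
    | insert q s hq ih =>
      intro g h1 h2
      obtain ⟨j0, θ0⟩ := q
      set b := blow (C.E j0 θ0) (C.D j0) (C.small j0 θ0) (σ j0 θ0) with hb
      have hbG : b ∈ C.G ι := by
        have h3 : b ∈ C.X ι j0 θ0 := Subgroup.mem_map_of_mem _ (hσ j0 θ0)
        exact (le_iSup (fun q : J × Θ => C.X ι q.1 q.2) (j0, θ0)) h3
      have hoff : ∀ u f, ¬ (C.lab u = some j0 ∧ C.typ j0 (C.anch u) = θ0) →
          b⁻¹ (u, f) = (u, f) := by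
        intro u f h
        rw [Perm.inv_eq_iff_eq, hb, blow_off C j0 θ0 _ h]
      have hg : g = g * b⁻¹ * b := by rw [inv_mul_cancel_right]
      rw [hg]
      refine mul_mem (ih (g * b⁻¹) ?_ ?_) hbG
      · intro u f h
        rw [Perm.mul_apply]
        by_cases hu : C.lab u = some j0 ∧ C.typ j0 (C.anch u) = θ0
        · -- a point of a `q`-cell
          obtain ⟨hu1, hu2⟩ := hu
          have hd : u - N • C.anch u ∈ C.D j0 := (CS.sub_mem_D C).2 ⟨rfl, hu1⟩
          obtain ⟨⟨d, e⟩, hde⟩ : ∃ y, σ j0 θ0 y = (⟨u - N • C.anch u, hd⟩, f) :=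
            (σ j0 θ0).surjective _
          have hbu : b (N • C.anch u + (d : Z2), e) = (u, f) := by
            rw [hb]
            have := blow_on C j0 (C.anch u) (σ j0 θ0) d e
            rw [hu2] at this
            rw [this, hde]
            simp
          have hbi : b⁻¹ (u, f) = (N • C.anch u + (d : Z2), e) := by
            rw [Perm.inv_eq_iff_eq]; exact hbu.symm
          rw [hbi]
          have h3 := h2 j0 (C.anch u) d e (by rw [hu2]; exact Finset.mem_insert_self _ _)
          rw [hu2, hde] at h3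
          rw [h3]
          simp
        · rw [hoff u f hu]
          apply h1
          intro j hj hmem
          rcases Finset.mem_insert.1 hmem with h3 | h3
          · obtain ⟨rfl, h4⟩ := Prod.mk.inj h3
            exact hu ⟨hj, h4⟩
          · exact h j hj h3
      · intro j p d f hmem
        rw [Perm.mul_apply, hoff, h2 j p d f (Finset.mem_insert_of_mem hmem)]
        rintro ⟨h3, h4⟩
        rw [C.lab_zero_add d.2] at h3
        rw [C.anch_zero_add d.2] at h4
        obtain rfl := Option.some.inj h3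
        rw [h4] at hmem
        exact hq hmem
  apply key Finset.univ g
  · intro u f h
    apply h1
    cases hl : C.lab u with
    | none => rfl
    | some j => exact absurd (Finset.mem_univ _) (h j hl)
  · intro j p d f _
    exact h2 j p d f

/-- The points above the cell `(j, p)`. -/
def cellF (C : CS N J Θ) (ι : Type) [Fintype ι] [DecidableEq ι] (j : J) (p : Z2) :
    Finset (Z2 × ι) :=
  (Finset.univ : Finset (C.D j × ι)).image (fun z => (N • p + (z.1 : Z2), z.2))

omit [Fintype ι] [DecidableEq ι] in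
theorem cellF_inj (C : CS N J Θ) (j : J) (p : Z2) :
    Function.Injective (fun z : C.D j × ι => ((N • p + (z.1 : Z2), z.2) : Z2 × ι)) := by
  rintro ⟨d, f⟩ ⟨d', f'⟩ h
  obtain ⟨h1, h2⟩ := Prod.mk.inj h
  refine Prod.ext (Subtype.ext ?_) h2
  exact add_left_cancel h1

theorem mem_cellF (C : CS N J Θ) {j : J} {p : Z2} {z : Z2 × ι} :
    z ∈ cellF C ι j p ↔ z.1 - N • p ∈ C.D j := by
  rw [cellF, Finset.mem_image]
  constructor
  · rintro ⟨⟨d, f⟩, -, rfl⟩
    simp
  · intro h
    exact ⟨(⟨z.1 - N • p, h⟩, z.2), Finset.mem_univ _, by simp⟩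

/-- Criterion with signs on the cells. -/
theorem mem_G_of_sgn (C : CS N J Θ) [Fintype J] [Fintype Θ] (g : Perm (Z2 × ι))
    (h1 : ∀ u f, C.lab u = none → g (u, f) = (u, f))
    (h2 : ∀ j p z, z ∈ cellF C ι j p → g z ∈ cellF C ι j p)
    (h3 : ∀ j p p', C.typ j p = C.typ j p' → ∀ d ∈ C.D j, ∀ f,
      g (N • p' + d, f) = ((g (N • p + d, f)).1 + N • (p' - p), (g (N • p + d, f)).2))
    (h4 : ∀ j p, sgnOn (cellF C ι j p) g = 1) : g ∈ C.G ι := by
  classical
  -- the permutation induced on a cell
  have hind : ∀ j p, ∃ σ : Perm (C.D j × ι), ∀ z,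
      g (N • p + (z.1 : Z2), z.2) = (N • p + ((σ z).1 : Z2), (σ z).2) := by
    intro j p
    have hex : ∀ z : C.D j × ι, ∃ y : C.D j × ι,
        g (N • p + (z.1 : Z2), z.2) = (N • p + (y.1 : Z2), y.2) := by
      intro z
      have h5 := h2 j p (N • p + (z.1 : Z2), z.2) ((mem_cellF C).2 (by simp))
      rw [cellF, Finset.mem_image] at h5
      obtain ⟨y, -, hy⟩ := h5
      exact ⟨y, hy.symm⟩
    choose τ hτ using hex
    have hτi : Function.Injective τ := by
      intro z z' h
      have h5 := hτ z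
      rw [h, ← hτ z'] at h5
      exact cellF_inj C j p (g.injective h5)
    exact ⟨Equiv.ofBijective τ (Finite.injective_iff_bijective.1 hτi), hτ⟩
  choose σ hσ using hind
  -- choose representatives of the types
  let rep : J → Θ → Z2 := fun j θ => if h : ∃ p, C.typ j p = θ then h.choose else 0
  have hrep : ∀ j p, C.typ j (rep j (C.typ j p)) = C.typ j p := by
    intro j p
    have h : ∃ p', C.typ j p' = C.typ j p := ⟨p, rfl⟩
    simp only [rep]
    rw [dif_pos h]
    exact h.choose_spec
  refine mem_G_of_perm C (fun j θ => σ j (rep j θ)) (fun j θ => ?_) g h1 (fun j p d f => ?_)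
  · rw [Perm.mem_alternatingGroup, ← h4 j (rep j θ)]
    symm
    refine sgnOn_eq_sign (fun z : C.D j × ι => ((N • (rep j θ) + (z.1 : Z2), z.2) : Z2 × ι))
      (cellF_inj C j _) (fun z => ?_) (σ j (rep j θ)) (fun z => hσ j (rep j θ) z)
    rw [cellF, Finset.mem_image]
    simp
  · have h5 := h3 j (rep j (C.typ j p)) p (hrep j p) d d.2 f
    rw [h5, hσ j (rep j (C.typ j p)) (d, f)]
    refine Prod.ext ?_ rfl
    simp only [smul_sub]
    abel

/-- Membership criterion for simultaneous site permutations. -/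
theorem blow_mem_G (C : CS N J Θ) [Fintype J] [Fintype Θ] {E : Set Z2} {V : Finset Z2}
    (h : Small E V) (σ : Perm (V × ι)) (hσ : σ ∈ alternatingGroup (V × ι))
    (hcell : ∀ u ∈ E, ∃ j p, ∀ v ∈ V, u + v - N • p ∈ C.D j)
    (htype : ∀ j p p' x, C.typ j p = C.typ j p' → (∀ v ∈ V, x + v ∈ C.D j) →
      N • p + x ∈ E → N • p' + x ∈ E) : blow E V h σ ∈ C.G ι := by
  classical
  rcases V.eq_empty_or_nonempty with hV | ⟨v0, hv0⟩
  · subst hV
    have : σ = 1 := Subsingleton.elim _ _
    rw [this, map_one]; exact one_mem _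
  -- atoms meeting a cell are inside the cell
  have hin : ∀ j p x, N • p + x ∈ E → ∀ v ∈ V, x + v ∈ C.D j → ∀ v' ∈ V, x + v' ∈ C.D j := by
    intro j p x hx v hv hd v' hv'
    obtain ⟨j', p', hjp⟩ := hcell _ hx
    have h1 := (CS.sub_mem_D C).1 (hjp v hv)
    have h2 := hjp v' hv'
    have h3 : C.anch (N • p + x + v) = p ∧ C.lab (N • p + x + v) = some j := by
      rw [← CS.sub_mem_D]
      have : N • p + x + v - N • p = x + v := by abel
      rw [this]; exact hd
    have hp : p' = p := h1.1.symm.trans h3.1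
    have hj : j' = j := Option.some.inj (h1.2.symm.trans h3.2)
    subst hp hj
    have : N • p' + x + v' - N • p' = x + v' := by abel
    rw [this] at h2; exact h2
  have hfix : ∀ y f, (∀ v ∈ V, y - v ∉ E) → blow E V h σ (y, f) = (y, f) := by
    intro y f hy
    exact blow_eq_self h σ (fun v hv => absurd hv (hy v v.2))
  have hmove : ∀ x ∈ E, ∀ v : V, ∀ f, blow E V h σ (x + (v : Z2), f) =
      (x + ((σ (v, f)).1 : Z2), (σ (v, f)).2) := fun x hx v f => blow_apply h σ hx (v, f)
  refine mem_G_of_sgn C _ ?_ ?_ ?_ ?_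
  · intro u f hu
    apply hfix
    intro v hv hE
    obtain ⟨j, p, hjp⟩ := hcell _ hE
    have h1 := ((CS.sub_mem_D C).1 (hjp v hv)).2
    rw [sub_add_cancel, hu] at h1
    exact absurd h1 (by simp)
  · rintro j p ⟨y, f⟩ hy
    rw [mem_cellF] at hy ⊢
    by_cases hv : ∃ v ∈ V, y - v ∈ E
    · obtain ⟨v, hv, hE⟩ := hv
      have h1 := hmove (y - v) hE ⟨v, hv⟩ f
      rw [sub_add_cancel] at h1
      rw [h1]
      have h2 := hin j p (y - v - N • p) (by
        have : N • p + (y - v - N • p) = y - v := by abel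
        rw [this]; exact hE) v hv (by
          have : y - v - N • p + v = y - N • p := by abel
          rw [this]; exact hy) _ (σ (⟨v, hv⟩, f)).1.2
      have h3 : y - v - N • p + ((σ (⟨v, hv⟩, f)).1 : Z2) =
        y - v + ((σ (⟨v, hv⟩, f)).1 : Z2) - N • p := by abel
      rw [h3] at h2
      exact h2
    · push Not at hv
      rw [hfix y f hv]; exact hy
  · intro j p p' hpp d hd f
    by_cases hv : ∃ v ∈ V, N • p + d - v ∈ E
    · obtain ⟨v, hv, hE⟩ := hv
      have e1 : N • p + (d - v) = N • p + d - v := by abel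
      have hE' : N • p' + (d - v) ∈ E := by
        apply htype j p p' (d - v) hpp _ (by rw [e1]; exact hE)
        exact hin j p (d - v) (by rw [e1]; exact hE) v hv (by rw [sub_add_cancel]; exact hd)
      have h1 := hmove _ hE ⟨v, hv⟩ f
      have h2 := hmove _ hE' ⟨v, hv⟩ f
      rw [sub_add_cancel] at h1
      have e2 : N • p' + (d - v) + v = N • p' + d := by abel
      simp only [e2] at h2
      rw [h1, h2]
      refine Prod.ext ?_ rfl
      simp only [smul_sub]
      abel
    · push Not at hv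
      have hv' : ∀ v ∈ V, N • p' + d - v ∉ E := by
        intro v hv1 hE
        apply hv v hv1
        have e1 : N • p' + (d - v) = N • p' + d - v := by abel
        have e2 : N • p + (d - v) = N • p + d - v := by abel
        rw [← e2]
        apply htype j p' p (d - v) hpp.symm _ (by rw [e1]; exact hE)
        exact hin j p' (d - v) (by rw [e1]; exact hE) v hv1 (by rw [sub_add_cancel]; exact hd)
      rw [hfix _ f hv, hfix _ f hv']
      refine Prod.ext ?_ rfl
      simp only [smul_sub]
      abel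
  · intro j p
    -- the atoms in the cell
    let A : Finset Z2 := ((C.D j).image (fun d => d - v0)).filter
      (fun x => N • p + x ∈ E ∧ ∀ v ∈ V, x + v ∈ C.D j)
    have hA : ∀ x, x ∈ A ↔ N • p + x ∈ E ∧ ∀ v ∈ V, x + v ∈ C.D j := by
      intro x
      simp only [A, Finset.mem_filter, Finset.mem_image, and_iff_right_iff_imp]
      rintro ⟨-, h1⟩
      exact ⟨x + v0, h1 v0 hv0, by abel⟩
    let at1 : Z2 → V × ι → Z2 × ι := fun x z => (N • p + x + (z.1 : Z2), z.2)
    have hat1 : ∀ x, Function.Injective (at1 x) := by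
      rintro x ⟨v, f⟩ ⟨v', f'⟩ h5
      obtain ⟨h6, h7⟩ := Prod.mk.inj h5
      exact Prod.ext (Subtype.ext (add_left_cancel h6)) h7
    let aF : Z2 → Finset (Z2 × ι) := fun x => (Finset.univ : Finset (V × ι)).image (at1 x)
    have hact : ∀ x ∈ A, ∀ z, blow E V h σ (at1 x z) = at1 x (σ z) := by
      intro x hx z
      exact hmove _ ((hA x).1 hx).1 z.1 z.2
    have hinv : ∀ x ∈ A, Inv (aF x) (blow E V h σ) := by
      intro x hx
      apply inv_of_forall
      intro z hz
      obtain ⟨y, -, rfl⟩ := Finset.mem_image.1 hz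
      rw [hact x hx]
      exact Finset.mem_image_of_mem _ (Finset.mem_univ _)
    have hsub : A.biUnion aF ⊆ cellF C ι j p := by
      intro z hz
      obtain ⟨x, hx, hz⟩ := Finset.mem_biUnion.1 hz
      obtain ⟨y, -, rfl⟩ := Finset.mem_image.1 hz
      rw [mem_cellF]
      have h5 := ((hA x).1 hx).2 y.1 y.1.2
      have e1 : N • p + x + (y.1 : Z2) - N • p = x + y.1 := by abel
      show N • p + x + (y.1 : Z2) - N • p ∈ C.D j
      rw [e1]; exact h5
    rw [sgnOn_subset hsub (inv_biUnion hinv), sgnOn_biUnion A aF _ hinv]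
    · apply Finset.prod_eq_one
      intro x hx
      rw [← Perm.mem_alternatingGroup.1 hσ]
      apply sgnOn_eq_sign (at1 x) (hat1 x) _ σ (hact x hx)
      intro z
      simp only [aF, Finset.mem_image, Finset.mem_univ, true_and]
    · intro x hx x' hx' hne
      rw [Finset.disjoint_left]
      intro z hz hz'
      obtain ⟨y, -, rfl⟩ := Finset.mem_image.1 hz
      obtain ⟨y', -, h5⟩ := Finset.mem_image.1 hz'
      apply hne
      obtain ⟨h6, -⟩ := Prod.mk.inj h5
      have h7 : (y'.1 : Z2) = y.1 := h _ y'.1.2 _ y.1.2 _ ((hA x').1 hx').1 _ ((hA x).1 hx).1 h6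
      rw [h7] at h6
      exact (add_left_cancel (add_right_cancel h6)).symm
    · rintro ⟨y, f⟩ hy hyn
      apply hfix
      intro v hv hE
      apply hyn
      rw [mem_cellF] at hy
      rw [Finset.mem_biUnion]
      refine ⟨y - v - N • p, (hA _).2 ?_, ?_⟩
      · have e1 : N • p + (y - v - N • p) = y - v := by abel
        rw [e1]
        refine ⟨hE, ?_⟩
        refine hin j p _ (by rw [e1]; exact hE) v hv ?_
        have e2 : y - v - N • p + v = y - N • p := by abel
        rw [e2]; exact hy
      · refine Finset.mem_image.2 ⟨(⟨v, hv⟩, f), Finset.mem_univ _, ?_⟩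
        refine Prod.ext ?_ rfl
        show N • p + (y - v - N • p) + v = y
        abel

end Vale.Agent.P196.H798
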