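import Vale.Agent.P196.H798.Dec1
import Vale.Agent.P196.H513.Flux

/-!
Block S-DEC of P196, part 2: membership criterion for the letters `X σ E a`.
-/

noncomputable section

namespace Vale.Agent.P196.H798

open Equiv Vale.Agent.P196.S0 Vale.Agent.P196.Cut Vale.Agent.P196.H513

variable {N : ℤ} {J Θ : Type} {ι : Type} [Fintype ι] [DecidableEq ι]

omit [Fintype ι] [DecidableEq ι] in
theorem X_atom {σ : ι → Z2} {E : Set Z2} {a : Perm ι} {x : Z2} (hx : x ∈ E) (f : ι) :
    X σ E a (x + σ f, f) = (x + σ (a f), a f) := by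
  have h : x + σ f - σ f ∈ E := by rw [add_sub_cancel_right]; exact hx
  rw [X_apply_mem h, add_sub_cancel_right]

/-- Membership criterion for letters. -/
theorem X_mem_G (C : CS N J Θ) [Fintype J] [Fintype Θ] [Nonempty ι] (σ : ι → Z2) {E : Set Z2}
    {a : Perm ι} (ha : a ∈ alternatingGroup ι)
    (hcell : ∀ u ∈ E, ∃ j p, ∀ f, u + σ f - N • p ∈ C.D j)
    (htype : ∀ j p p' x, C.typ j p = C.typ j p' → (∀ f, x + σ f ∈ C.D j) →
      N • p + x ∈ E → N • p' + x ∈ E) : X σ E a ∈ C.G ι := by
  classical
  -- atoms meeting a cell are inside the cell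
  have hin : ∀ j p x, N • p + x ∈ E → ∀ f, x + σ f ∈ C.D j → ∀ f', x + σ f' ∈ C.D j := by
    intro j p x hx f hd f'
    obtain ⟨j', p', hjp⟩ := hcell _ hx
    have h1 := (CS.sub_mem_D C).1 (hjp f)
    have h2 := hjp f'
    have h3 : C.anch (N • p + x + σ f) = p ∧ C.lab (N • p + x + σ f) = some j := by
      rw [← CS.sub_mem_D]
      have : N • p + x + σ f - N • p = x + σ f := by abel
      rw [this]; exact hd
    have hp : p' = p := h1.1.symm.trans h3.1
    have hj : j' = j := Option.some.inj (h1.2.symm.trans h3.2)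
    subst hp hj
    have : N • p' + x + σ f' - N • p' = x + σ f' := by abel
    rw [this] at h2; exact h2
  have hfix : ∀ y f, y - σ f ∉ E → X σ E a (y, f) = (y, f) := fun y f hy => X_apply_notMem hy
  have hmove : ∀ x ∈ E, ∀ f, X σ E a (x + σ f, f) = (x + σ (a f), a f) :=
    fun x hx f => X_atom hx f
  refine mem_G_of_sgn C _ ?_ ?_ ?_ ?_
  · intro u f hu
    apply hfix
    intro hE
    obtain ⟨j, p, hjp⟩ := hcell _ hE
    have h1 := ((CS.sub_mem_D C).1 (hjp f)).2
    rw [sub_add_cancel, hu] at h1
    exact absurd h1 (by simp)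
  · rintro j p ⟨y, f⟩ hy
    rw [mem_cellF] at hy ⊢
    by_cases hE : y - σ f ∈ E
    · have h1 := hmove (y - σ f) hE f
      rw [sub_add_cancel] at h1
      rw [h1]
      have h2 := hin j p (y - σ f - N • p) (by
        have : N • p + (y - σ f - N • p) = y - σ f := by abel
        rw [this]; exact hE) f (by
          have : y - σ f - N • p + σ f = y - N • p := by abel
          rw [this]; exact hy) (a f)
      have h3 : y - σ f - N • p + σ (a f) = y - σ f + σ (a f) - N • p := by abel
      rw [h3] at h2
      exact h2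
    · rw [hfix y f hE]; exact hy
  · intro j p p' hpp d hd f
    have e1 : N • p + (d - σ f) = N • p + d - σ f := by abel
    have e1' : N • p' + (d - σ f) = N • p' + d - σ f := by abel
    by_cases hE : N • p + d - σ f ∈ E
    · have hE' : N • p' + (d - σ f) ∈ E := by
        apply htype j p p' (d - σ f) hpp _ (by rw [e1]; exact hE)
        exact hin j p (d - σ f) (by rw [e1]; exact hE) f (by rw [sub_add_cancel]; exact hd)
      have h1 := hmove _ hE f
      have h2 := hmove _ hE' f
      rw [sub_add_cancel] at h1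
      have e2 : N • p' + (d - σ f) + σ f = N • p' + d := by abel
      simp only [e2] at h2
      rw [h1, h2]
      refine Prod.ext ?_ rfl
      simp only [smul_sub]
      abel
    · have hv' : N • p' + d - σ f ∉ E := by
        intro hE'
        apply hE
        rw [← e1]
        apply htype j p' p (d - σ f) hpp.symm _ (by rw [e1']; exact hE')
        exact hin j p' (d - σ f) (by rw [e1']; exact hE') f (by rw [sub_add_cancel]; exact hd)
      rw [hfix _ f hE, hfix _ f hv']
      refine Prod.ext ?_ rfl
      simp only [smul_sub]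
      abel
  · intro j p
    obtain ⟨f0⟩ := ‹Nonempty ι›
    let A : Finset Z2 := ((C.D j).image (fun d => d - σ f0)).filter
      (fun x => N • p + x ∈ E ∧ ∀ f, x + σ f ∈ C.D j)
    have hA : ∀ x, x ∈ A ↔ N • p + x ∈ E ∧ ∀ f, x + σ f ∈ C.D j := by
      intro x
      simp only [A, Finset.mem_filter, Finset.mem_image, and_iff_right_iff_imp]
      rintro ⟨-, h1⟩
      exact ⟨x + σ f0, h1 f0, by abel⟩
    let at1 : Z2 → ι → Z2 × ι := fun x f => (N • p + x + σ f, f)
    have hat1 : ∀ x, Function.Injective (at1 x) := fun x f f' h5 => (Prod.mk.inj h5).2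
    let aF : Z2 → Finset (Z2 × ι) := fun x => (Finset.univ : Finset ι).image (at1 x)
    have hact : ∀ x ∈ A, ∀ f, X σ E a (at1 x f) = at1 x (a f) := by
      intro x hx f
      exact hmove _ ((hA x).1 hx).1 f
    have hinv : ∀ x ∈ A, Inv (aF x) (X σ E a) := by
      intro x hx
      apply inv_of_forall
      intro z hz
      obtain ⟨y, -, rfl⟩ := Finset.mem_image.1 hz
      rw [hact x hx]
      exact Finset.mem_image_of_mem _ (Finset.mem_univ _)
    have hsub : A.biUnion aF ⊆ cellF C ι j p := by
      intro z hz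
      obtain ⟨x, hx, hz⟩ := Finset.mem_biUnion.1 hz
      obtain ⟨y, -, rfl⟩ := Finset.mem_image.1 hz
      rw [mem_cellF]
      have h5 := ((hA x).1 hx).2 y
      have e1 : N • p + x + σ y - N • p = x + σ y := by abel
      show N • p + x + σ y - N • p ∈ C.D j
      rw [e1]; exact h5
    rw [sgnOn_subset hsub (inv_biUnion hinv), sgnOn_biUnion A aF _ hinv]
    · apply Finset.prod_eq_one
      intro x hx
      rw [← Perm.mem_alternatingGroup.1 ha]
      apply sgnOn_eq_sign (at1 x) (hat1 x) _ a (hact x hx)
      intro z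
      simp only [aF, Finset.mem_image, Finset.mem_univ, true_and]
    · intro x hx x' hx' hne
      rw [Finset.disjoint_left]
      intro z hz hz'
      obtain ⟨y, -, rfl⟩ := Finset.mem_image.1 hz
      obtain ⟨y', -, h5⟩ := Finset.mem_image.1 hz'
      apply hne
      obtain ⟨h6, h7⟩ := Prod.mk.inj h5
      rw [h7] at h6
      exact (add_left_cancel (add_right_cancel h6)).symm
    · rintro ⟨y, f⟩ hy hyn
      apply hfix
      intro hE
      apply hyn
      rw [mem_cellF] at hy
      rw [Finset.mem_biUnion]
      refine ⟨y - σ f - N • p, (hA _).2 ?_, ?_⟩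
      · have e1 : N • p + (y - σ f - N • p) = y - σ f := by abel
        rw [e1]
        refine ⟨hE, ?_⟩
        refine hin j p _ (by rw [e1]; exact hE) f ?_
        have e2 : y - σ f - N • p + σ f = y - N • p := by abel
        rw [e2]; exact hy
      · refine Finset.mem_image.2 ⟨f, Finset.mem_univ _, ?_⟩
        refine Prod.ext ?_ rfl
        show N • p + (y - σ f - N • p) + σ f = y
        abel

end Vale.Agent.P196.H798
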