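import Vale.Agent.P196.Cut.Defs

/-!
Block S-DEC of P196: geometry of the coordinates at scale `2 * M`.
-/

namespace Vale.Agent.P196.H798

open Vale.Agent.P196.S0 Vale.Agent.P196.Cut

variable {M : ℤ}

theorem fI_spec (hM : 0 < M) (x : ℤ) : 2 * M * fI M x ≤ x ∧ x < 2 * M * fI M x + 2 * M := by
  have h1 := Int.emod_add_mul_ediv x (2 * M)
  have h2 := Int.emod_nonneg x (show (2 * M) ≠ 0 by omega)
  have h3 := Int.emod_lt_of_pos x (show 0 < 2 * M by omega)
  unfold fI
  omega

theorem fI_eq_of (hM : 0 < M) {x k : ℤ} (h1 : 2 * M * k ≤ x) (h2 : x < 2 * M * k + 2 * M) :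
    fI M x = k := by
  unfold fI
  rw [Int.ediv_eq_iff_of_pos (by omega)]
  constructor
  · nlinarith
  · nlinarith

theorem vI_spec (hM : 0 < M) (x : ℤ) : 2 * M * vI M x - M ≤ x ∧ x < 2 * M * vI M x + M := by
  have h := fI_spec hM (x + M)
  have : fI M (x + M) = vI M x := rfl
  rw [this] at h
  omega

theorem vI_eq_of (hM : 0 < M) {x k : ℤ} (h1 : 2 * M * k - M ≤ x) (h2 : x < 2 * M * k + M) :
    vI M x = k := by
  have : vI M x = fI M (x + M) := rfl
  rw [this]
  exact fI_eq_of hM (by omega) (by omega)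

theorem dI_right (hM : 0 < M) {x k : ℤ} (h1 : 2 * M * k ≤ x) (h2 : x < 2 * M * k + M) :
    dI M x = x - 2 * M * k := by
  have hk := fI_eq_of hM h1 (by omega)
  have h3 := Int.emod_add_mul_ediv x (2 * M)
  unfold fI at hk
  rw [hk] at h3
  unfold dI
  rw [if_pos (by omega)]
  omega

theorem dI_left (hM : 0 < M) {x k : ℤ} (h1 : 2 * M * k - M ≤ x) (h2 : x < 2 * M * k) :
    dI M x = 2 * M * k - 1 - x := by
  have e : 2 * M * (k - 1) = 2 * M * k - 2 * M := by ring
  have hk := fI_eq_of (x := x) (k := k - 1) hM (by omega) (by omega)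
  have h3 := Int.emod_add_mul_ediv x (2 * M)
  unfold fI at hk
  rw [hk, e] at h3
  unfold dI
  rw [if_neg (by omega)]
  omega

/-- Distance in terms of the nearest vertex. -/
theorem dI_vI (hM : 0 < M) (x : ℤ) :
    (2 * M * vI M x ≤ x ∧ dI M x = x - 2 * M * vI M x) ∨
      (x < 2 * M * vI M x ∧ dI M x = 2 * M * vI M x - 1 - x) := by
  have h := vI_spec hM x
  by_cases h1 : 2 * M * vI M x ≤ x
  · exact Or.inl ⟨h1, dI_right hM h1 h.2⟩
  · exact Or.inr ⟨by omega, dI_left hM h.1 (by omega)⟩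

/-- Distance in terms of the face index. -/
theorem dI_fI (hM : 0 < M) (x : ℤ) :
    (dI M x = x - 2 * M * fI M x ∧ x - 2 * M * fI M x < M) ∨
      (dI M x = 2 * M * fI M x + 2 * M - 1 - x ∧ M ≤ x - 2 * M * fI M x) := by
  have h := fI_spec hM x
  by_cases h1 : x < 2 * M * fI M x + M
  · exact Or.inl ⟨dI_right hM h.1 h1, by omega⟩
  · have e : 2 * M * (fI M x + 1) = 2 * M * fI M x + 2 * M := by ring
    have := dI_left (x := x) (k := fI M x + 1) hM (by omega) (by omega)
    exact Or.inr ⟨by omega, by omega⟩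

theorem dI_nonneg (hM : 0 < M) (x : ℤ) : 0 ≤ dI M x := by
  rcases dI_vI hM x with h | h <;> omega

theorem dI_lt (hM : 0 < M) (x : ℤ) : dI M x < M := by
  have h0 := vI_spec hM x
  rcases dI_vI hM x with h | h <;> omega

/-- `dI` is `1`-Lipschitz. -/
theorem dI_lip (hM : 0 < M) {x y r : ℤ} (hr : r ≤ M) (h : |y - x| ≤ r) :
    dI M y ≤ dI M x + r := by
  rw [abs_le] at h
  have h1 := fI_spec hM x
  have h2 := dI_fI hM x
  have e1 : 2 * M * (fI M x + 1) = 2 * M * fI M x + 2 * M := by ring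
  generalize hP : fI M x = k at *
  rcases lt_or_ge y (2 * M * k) with h3 | h3
  · have := dI_left (x := y) (k := k) hM (by omega) h3
    omega
  rcases lt_or_ge y (2 * M * k + M) with h4 | h4
  · have := dI_right (x := y) (k := k) hM h3 h4
    omega
  rcases lt_or_ge y (2 * M * k + 2 * M) with h5 | h5
  · have := dI_left (x := y) (k := k + 1) hM (by omega) (by omega)
    omega
  · have := dI_right (x := y) (k := k + 1) hM (by omega) (by omega)
    omega

theorem dI_lip' (hM : 0 < M) {x y r : ℤ} (hr : r ≤ M) (h : |y - x| ≤ r) :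
    dI M x ≤ dI M y + r :=
  dI_lip hM hr (by rwa [abs_sub_comm])

theorem vI_near (hM : 0 < M) {x y r ρ : ℤ} (hx : dI M x < ρ) (h : |y - x| ≤ r)
    (hρ : ρ + r ≤ M) : vI M y = vI M x := by
  rw [abs_le] at h
  rcases dI_vI hM x with h1 | h1
  · exact vI_eq_of hM (by omega) (by omega)
  · exact vI_eq_of hM (by omega) (by omega)

theorem fI_far (hM : 0 < M) {x y r : ℤ} (hx : r ≤ dI M x) (h : |y - x| ≤ r) :
    fI M y = fI M x := by
  rw [abs_le] at h
  have h1 := fI_spec hM x
  rcases dI_fI hM x with h2 | h2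
  · exact fI_eq_of hM (by omega) (by omega)
  · exact fI_eq_of hM (by omega) (by omega)

end Vale.Agent.P196.H798
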