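import Vale.Agent.P196.H798.Dec2
import Vale.Agent.P196.H798.Geo
import Vale.Agent.P196.Tile.Inst

/-!
Block S-DEC of P196, part 3: the pieces of a letter near the vertices, near the edges and in
the faces belong to the vertex, strip and face groups.
-/

noncomputable section

namespace Vale.Agent.P196.H798

open Equiv Vale.Agent.P196.S0 Vale.Agent.P196.Cut Vale.Agent.P196.H513 Vale.Agent.P196.Wang

variable {M : ℤ}

/-- base points near a vertex -/
def DVr (M a : ℤ) : Set Z2 := {u | dI M u.1 < a ∧ dI M u.2 < a}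

/-- base points near an edge, not near a vertex -/
def DRr (M a b : ℤ) : Set Z2 :=
  {u | ¬ (dI M u.1 < a ∧ dI M u.2 < a) ∧ (dI M u.1 < b ∨ dI M u.2 < b)}

/-- the other base points -/
def DFr (M a b : ℤ) : Set Z2 :=
  {u | ¬ (dI M u.1 < a ∧ dI M u.2 < a) ∧ ¬ (dI M u.1 < b ∨ dI M u.2 < b)}

/-- offsets bounded by `r` -/
def OffBd {ι : Type*} (r : ℤ) (σ : ι → Z2) : Prop := ∀ f, |(σ f).1| ≤ r ∧ |(σ f).2| ≤ r

theorem dI_per1 (p x : Z2) : dI M ((2 * M) • p + x).1 = dI M x.1 := by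
  have : ((2 * M) • p + x).1 = x.1 + 2 * M * p.1 := by simp; ring
  rw [this, dI_add]

theorem dI_per2 (p x : Z2) : dI M ((2 * M) • p + x).2 = dI M x.2 := by
  have : ((2 * M) • p + x).2 = x.2 + 2 * M * p.2 := by simp; ring
  rw [this, dI_add]

theorem smul_eq_pow {m : ℕ} (hN : 2 * M = 2 ^ m) (p x : Z2) :
    (2 * M) • p + x = (2 ^ m * p.1 + x.1, 2 ^ m * p.2 + x.2) := by
  rw [hN]
  refine Prod.ext ?_ ?_ <;> simp

variable {ι : Type} [Fintype ι] [DecidableEq ι] [Nonempty ι]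

/-- Pieces near the vertices. -/
theorem X_mem_V (hM : 0 < M) {m : ℕ} (hN : 2 * M = 2 ^ m) {E : Set Z2} {R : ℕ}
    (hE : ∀ u v : Z2, SameWin R u v → (u ∈ E ↔ v ∈ E)) {σ : ι → Z2} {r : ℤ} (hσ : OffBd r σ)
    {a : ℤ} (ha1 : a + r ≤ M) (ha2 : a + R < 2 * M) {α : Perm ι} (hα : α ∈ alternatingGroup ι) :
    X σ (E ∩ DVr M a) α ∈ (Vsys hM tySys).G ι := by
  have hanch : ∀ u ∈ DVr M a, ∀ f, aV M (u + σ f) = aV M u := by
    intro u hu f
    refine Prod.ext ?_ ?_
    · exact vI_near hM hu.1 (by simpa using (hσ f).1) ha1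
    · exact vI_near hM hu.2 (by simpa using (hσ f).2) ha1
  refine X_mem_G (Vsys hM tySys) σ hα ?_ ?_
  · rintro u ⟨-, hu⟩
    refine ⟨(), aV M u, fun f => ?_⟩
    rw [CS.sub_mem_D]
    exact ⟨hanch u hu f, rfl⟩
  · rintro ⟨⟩ p p' x hpp hx ⟨hxE, hxD⟩
    have hpp' : t p = t p' := hpp
    have hxD' : x ∈ DVr M a := by
      have h1 := hxD.1
      have h2 := hxD.2
      rw [dI_per1] at h1
      rw [dI_per2] at h2
      exact ⟨h1, h2⟩
    obtain ⟨f0⟩ := ‹Nonempty ι›
    have h0 : aV M x = 0 := by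
      rw [← hanch x hxD' f0]
      exact (((Vsys hM tySys).mem_D _ _).1 (hx f0)).1
    have h01 : vI M x.1 = 0 := congrArg Prod.fst h0
    have h02 : vI M x.2 = 0 := congrArg Prod.snd h0
    have hb1 := dI_vI hM x.1
    have hb2 := dI_vI hM x.2
    rw [h01, mul_zero] at hb1
    rw [h02, mul_zero] at hb2
    have hx1 := hxD'.1
    have hx2 := hxD'.2
    refine ⟨?_, ?_⟩
    · rw [smul_eq_pow hN] at hxE ⊢
      refine (vertex_mem hE m hpp' x ?_ ?_).1 hxE
      · rw [← hN]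
        have : |x.1| ≤ a := by rw [abs_le]; omega
        omega
      · rw [← hN]
        have : |x.2| ≤ a := by rw [abs_le]; omega
        omega
    · refine ⟨?_, ?_⟩
      · rw [dI_per1]; exact hx1
      · rw [dI_per2]; exact hx2

/-- Pieces inside the faces. -/
theorem X_mem_F (hM : 0 < M) {m : ℕ} (hN : 2 * M = 2 ^ m) {E : Set Z2} {R : ℕ}
    (hE : ∀ u v : Z2, SameWin R u v → (u ∈ E ↔ v ∈ E)) {σ : ι → Z2} {r : ℤ} (hσ : OffBd r σ)
    {a b : ℤ} (hb1 : r ≤ b) (hb2 : R < b) {α : Perm ι} (hα : α ∈ alternatingGroup ι) :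
    X σ (E ∩ DFr M a b) α ∈ (Fsys hM tySys).G ι := by
  have hfar : ∀ u ∈ DFr M a b, b ≤ dI M u.1 ∧ b ≤ dI M u.2 := by
    rintro u ⟨-, hu⟩
    push Not at hu
    exact hu
  have hanch : ∀ u ∈ DFr M a b, ∀ f, aF M (u + σ f) = aF M u := by
    intro u hu f
    have h := hfar u hu
    refine Prod.ext ?_ ?_
    · exact fI_far hM (hb1.trans h.1) (by simpa using (hσ f).1)
    · exact fI_far hM (hb1.trans h.2) (by simpa using (hσ f).2)
  refine X_mem_G (Fsys hM tySys) σ hα ?_ ?_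
  · rintro u ⟨-, hu⟩
    refine ⟨(), aF M u, fun f => ?_⟩
    rw [CS.sub_mem_D]
    exact ⟨hanch u hu f, rfl⟩
  · rintro ⟨⟩ p p' x hpp hx ⟨hxE, hxD⟩
    have hpp' : (t p).lab = (t p').lab := hpp
    have hxD' : x ∈ DFr M a b := by
      obtain ⟨h1, h2⟩ := hxD
      rw [dI_per1, dI_per2] at h1 h2
      exact ⟨h1, h2⟩
    obtain ⟨f0⟩ := ‹Nonempty ι›
    have h0 : aF M x = 0 := by
      rw [← hanch x hxD' f0]
      exact (((Fsys hM tySys).mem_D _ _).1 (hx f0)).1
    have h01 : fI M x.1 = 0 := congrArg Prod.fst h0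
    have h02 : fI M x.2 = 0 := congrArg Prod.snd h0
    have hc1 := dI_fI hM x.1
    have hc2 := dI_fI hM x.2
    have hd1 := fI_spec hM x.1
    have hd2 := fI_spec hM x.2
    rw [h01, mul_zero] at hc1 hd1
    rw [h02, mul_zero] at hc2 hd2
    have h := hfar x hxD'
    refine ⟨?_, ?_⟩
    · rw [smul_eq_pow hN] at hxE ⊢
      refine (face_mem hE m hpp' x ?_ ?_ ?_ ?_).1 hxE
      · omega
      · rw [← hN]; omega
      · omega
      · rw [← hN]; omega
    · obtain ⟨h1, h2⟩ := hxD'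
      refine ⟨?_, ?_⟩
      · rw [dI_per1, dI_per2]; exact h1
      · rw [dI_per1, dI_per2]; exact h2

/-- Pieces near the edges. -/
theorem X_mem_RS (hM : 0 < M) {m : ℕ} (hN : 2 * M = 2 ^ m) {E : Set Z2} {R : ℕ}
    (hE : ∀ u v : Z2, SameWin R u v → (u ∈ E ↔ v ∈ E)) {σ : ι → Z2} {r : ℤ} (hσ : OffBd r σ)
    {a b s : ℤ} (hr : 0 ≤ r) (hba : b + 2 * r ≤ a) (hb : 0 ≤ b) (hbs : b + r ≤ s)
    (haR : R < a) (haM : b + r + R < M) {α : Perm ι} (hα : α ∈ alternatingGroup ι) :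
    X σ (E ∩ DRr M a b) α ∈ (RSsys hM s tySys).G ι := by
  -- the two cases
  have hcase : ∀ u ∈ DRr M a b, (dI M u.2 < b ∧ a ≤ dI M u.1) ∨ (dI M u.1 < b ∧ a ≤ dI M u.2) := by
    rintro u ⟨h1, h2⟩
    omega
  have hH : ∀ u, dI M u.2 < b → a ≤ dI M u.1 → ∀ f, sH M (u + σ f) = true ∧
      hR M (u + σ f) < s ∧ aR M (u + σ f) = (fI M u.1, vI M u.2) := by
    intro u h1 h2 f
    have e1 : |(u + σ f).1 - u.1| ≤ r := by simpa using (hσ f).1
    have e2 : |(u + σ f).2 - u.2| ≤ r := by simpa using (hσ f).2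
    have l1 := dI_lip' hM (by omega) e1
    have l2 := dI_lip hM (by omega) e2
    have hs : sH M (u + σ f) = true := by
      unfold sH; exact decide_eq_true (by omega)
    refine ⟨hs, ?_, ?_⟩
    · unfold hR; rw [hs, if_pos rfl]; omega
    · unfold aR; rw [hs, if_pos rfl]
      exact Prod.ext (fI_far hM (by omega) e1) (vI_near hM h1 e2 (by omega))
  have hV : ∀ u, dI M u.1 < b → a ≤ dI M u.2 → ∀ f, sH M (u + σ f) = false ∧
      hR M (u + σ f) < s ∧ aR M (u + σ f) = (vI M u.1, fI M u.2) := by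
    intro u h1 h2 f
    have e1 : |(u + σ f).1 - u.1| ≤ r := by simpa using (hσ f).1
    have e2 : |(u + σ f).2 - u.2| ≤ r := by simpa using (hσ f).2
    have l1 := dI_lip hM (by omega) e1
    have l2 := dI_lip' hM (by omega) e2
    have hs : sH M (u + σ f) = false := by
      unfold sH; exact decide_eq_false (by omega)
    refine ⟨hs, ?_, ?_⟩
    · unfold hR; rw [hs, if_neg (by simp)]; omega
    · unfold aR; rw [hs, if_neg (by simp)]
      exact Prod.ext (vI_near hM h1 e1 (by omega)) (fI_far hM (by omega) e2)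
  have hlab : ∀ u, hR M u < s → (RSsys hM s tySys).lab u = some (sH M u) := by
    intro u hu
    show (if hR M u < s then some (sH M u) else none) = _
    rw [if_pos hu]
  refine X_mem_G (RSsys hM s tySys) σ hα ?_ ?_
  · rintro u ⟨-, hu⟩
    rcases hcase u hu with h | h
    · refine ⟨true, (fI M u.1, vI M u.2), fun f => ?_⟩
      obtain ⟨h1, h2, h3⟩ := hH u h.1 h.2 f
      rw [CS.sub_mem_D, hlab _ h2, h1]
      exact ⟨h3, rfl⟩
    · refine ⟨false, (vI M u.1, fI M u.2), fun f => ?_⟩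
      obtain ⟨h1, h2, h3⟩ := hV u h.1 h.2 f
      rw [CS.sub_mem_D, hlab _ h2, h1]
      exact ⟨h3, rfl⟩
  · rintro j p p' x hpp hx ⟨hxE, hxD⟩
    have hxD' : x ∈ DRr M a b := by
      obtain ⟨h1, h2⟩ := hxD
      rw [dI_per1, dI_per2] at h1 h2
      exact ⟨h1, h2⟩
    obtain ⟨f0⟩ := ‹Nonempty ι›
    obtain ⟨h0, h0'⟩ := ((RSsys hM s tySys).mem_D _ _).1 (hx f0)
    have h0a : aR M (x + σ f0) = 0 := h0
    refine ⟨?_, ?_⟩
    · rw [smul_eq_pow hN] at hxE ⊢
      rcases hcase x hxD' with h | h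
      · obtain ⟨h1, h2, h3⟩ := hH x h.1 h.2 f0
        rw [hlab _ h2, h1] at h0'
        obtain rfl := Option.some.inj h0'
        have hpp' : (t p).east = (t p').east := Sum.inl.inj hpp
        rw [h3] at h0a
        have h01 : fI M x.1 = 0 := congrArg Prod.fst h0a
        have h02 : vI M x.2 = 0 := congrArg Prod.snd h0a
        have hc1 := dI_fI hM x.1
        have hd1 := fI_spec hM x.1
        have hc2 := dI_vI hM x.2
        rw [h01, mul_zero] at hc1 hd1
        rw [h02, mul_zero] at hc2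
        refine (hedge_mem hE m hpp' x ?_ ?_ ?_).1 hxE
        · omega
        · rw [← hN]; omega
        · rw [← hN]
          have : |x.2| ≤ b := by rw [abs_le]; omega
          omega
      · obtain ⟨h1, h2, h3⟩ := hV x h.1 h.2 f0
        rw [hlab _ h2, h1] at h0'
        obtain rfl := Option.some.inj h0'
        have hpp' : (t p).north = (t p').north := Sum.inr.inj hpp
        rw [h3] at h0a
        have h01 : vI M x.1 = 0 := congrArg Prod.fst h0a
        have h02 : fI M x.2 = 0 := congrArg Prod.snd h0a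
        have hc1 := dI_vI hM x.1
        have hd2 := fI_spec hM x.2
        have hc2 := dI_fI hM x.2
        rw [h01, mul_zero] at hc1
        rw [h02, mul_zero] at hc2 hd2
        refine (vedge_mem hE m hpp' x ?_ ?_ ?_).1 hxE
        · rw [← hN]
          have : |x.1| ≤ b := by rw [abs_le]; omega
          omega
        · omega
        · rw [← hN]; omega
    · obtain ⟨h1, h2⟩ := hxD'
      refine ⟨?_, ?_⟩
      · rw [dI_per1, dI_per2]; exact h1
      · rw [dI_per1, dI_per2]; exact h2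

end Vale.Agent.P196.H798
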