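import Vale.Agent.P196.H798.AltHom

/-!
Families of lifts of 3-cycles satisfying only the conjugation rule (block S2 of P196):
the group they generate is a central extension of the alternating group with kernel of
order at most `4`.
-/

namespace Vale.Agent.P196.H798

open Subgroup Equiv Equiv.Perm

variable {M : Type*} [DecidableEq M] [Fintype M]

/-- The alternating group is highly transitive. -/
theorem exists_alt_map {ι : Type*} [Fintype ι] (x y : ι → M) (hx : Function.Injective x)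
    (hy : Function.Injective y) (hc : Fintype.card ι + 2 ≤ Fintype.card M) :
    ∃ σ : alternatingGroup M, ∀ i, (σ : Perm M) (x i) = y i := by
  classical
  obtain ⟨g, hg⟩ := Equiv.Perm.exists_extending_pair x y hx hy
  rcases Int.units_eq_one_or (sign g) with h | h
  · exact ⟨⟨g, h⟩, hg⟩
  · have hcard : 1 < (Finset.univ.image x)ᶜ.card := by
      rw [Finset.card_compl, Finset.card_image_of_injective _ hx, Finset.card_univ]
      omega
    obtain ⟨a, ha, b, hb, hab⟩ := Finset.one_lt_card.1 hcard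
    have ha' : ∀ i, x i ≠ a := fun i h => by
      rw [Finset.mem_compl] at ha
      exact ha (Finset.mem_image.2 ⟨i, Finset.mem_univ _, h⟩)
    have hb' : ∀ i, x i ≠ b := fun i h => by
      rw [Finset.mem_compl] at hb
      exact hb (Finset.mem_image.2 ⟨i, Finset.mem_univ _, h⟩)
    refine ⟨⟨g * swap a b, ?_⟩, fun i => ?_⟩
    · rw [mem_alternatingGroup, map_mul, h, sign_swap hab]; rfl
    · show g (swap a b (x i)) = y i
      rw [swap_apply_of_ne_of_ne (ha' i) (hb' i), hg]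

theorem exists_alt_map3 (hc : 5 ≤ Fintype.card M) {a b c p q r : M} (hab : a ≠ b) (hac : a ≠ c)
    (hbc : b ≠ c) (hpq : p ≠ q) (hpr : p ≠ r) (hqr : q ≠ r) :
    ∃ σ : alternatingGroup M, (σ : Perm M) a = p ∧ (σ : Perm M) b = q ∧ (σ : Perm M) c = r := by
  obtain ⟨σ, hσ⟩ := exists_alt_map ![a, b, c] ![p, q, r]
    (by
      intro i j hij
      fin_cases i <;> fin_cases j <;> simp_all)
    (by
      intro i j hij
      fin_cases i <;> fin_cases j <;> simp_all)
    (by simpa using hc)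
  exact ⟨σ, hσ 0, hσ 1, hσ 2⟩

theorem exists_alt_map4 (hc : 6 ≤ Fintype.card M) {a b c d p q r s : M} (hab : a ≠ b)
    (hac : a ≠ c) (had : a ≠ d) (hbc : b ≠ c) (hbd : b ≠ d) (hcd : c ≠ d)
    (hpq : p ≠ q) (hpr : p ≠ r) (hps : p ≠ s) (hqr : q ≠ r) (hqs : q ≠ s) (hrs : r ≠ s) :
    ∃ σ : alternatingGroup M, (σ : Perm M) a = p ∧ (σ : Perm M) b = q ∧ (σ : Perm M) c = r ∧
      (σ : Perm M) d = s := by
  obtain ⟨σ, hσ⟩ := exists_alt_map ![a, b, c, d] ![p, q, r, s]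
    (by
      intro i j hij
      fin_cases i <;> fin_cases j <;> simp_all)
    (by
      intro i j hij
      fin_cases i <;> fin_cases j <;> simp_all)
    (by simpa using hc)
  exact ⟨σ, hσ 0, hσ 1, hσ 2, hσ 3⟩

variable {E Q : Type*} [Group E] [Group Q]

/-- A family of lifts of 3-cycles satisfying the conjugation rule. -/
structure ConjFamily (T : M → M → M → E) : Prop where
  cyc : ∀ a b c, a ≠ b → a ≠ c → b ≠ c → T b c a = T a b c
  inv : ∀ a b c, a ≠ b → a ≠ c → b ≠ c → T a c b = (T a b c)⁻¹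
  conj : ∀ a b c p q r, a ≠ b → a ≠ c → b ≠ c → p ≠ q → p ≠ r → q ≠ r →
    T a b c * T p q r * (T a b c)⁻¹ = T (c3 a b c p) (c3 a b c q) (c3 a b c r)

/-- The set of all `T a b c`, `a b c` distinct. -/
def tset (T : M → M → M → E) : Set E :=
  {g | ∃ a b c, a ≠ b ∧ a ≠ c ∧ b ≠ c ∧ g = T a b c}

theorem ConjFamily.conj_of_mem {T : M → M → M → E} (hT : ConjFamily T) (π : E →* Q)
    (j : alternatingGroup M →* Q)
    (hπ : ∀ a b c, a ≠ b → a ≠ c → b ≠ c → π (T a b c) = j (C a b c))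
    {g : E} (hg : g ∈ closure (tset T)) :
    ∃ σ : alternatingGroup M, π g = j σ ∧ ∀ p q r, p ≠ q → p ≠ r → q ≠ r →
      g * T p q r * g⁻¹ = T ((σ : Perm M) p) ((σ : Perm M) q) ((σ : Perm M) r) := by
  induction hg using closure_induction with
  | mem x hx =>
    obtain ⟨a, b, c, h1, h2, h3, rfl⟩ := hx
    refine ⟨C a b c, hπ a b c h1 h2 h3, fun p q r h4 h5 h6 => ?_⟩
    rw [coe_C h1 h3]
    exact hT.conj a b c p q r h1 h2 h3 h4 h5 h6
  | one =>
    refine ⟨1, by rw [map_one, map_one], fun p q r h4 h5 h6 => ?_⟩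
    rw [inv_one, mul_one, one_mul]; rfl
  | mul x y _ _ hx hy =>
    obtain ⟨σ, h1, h2⟩ := hx
    obtain ⟨τ, h3, h4⟩ := hy
    refine ⟨σ * τ, by rw [map_mul, map_mul, h1, h3], fun p q r h5 h6 h7 => ?_⟩
    have e1 : x * y * T p q r * (x * y)⁻¹ = x * (y * T p q r * y⁻¹) * x⁻¹ := by
      simp only [mul_inv_rev, mul_assoc]
    rw [e1, h4 p q r h5 h6 h7, h2 _ _ _ (fun h => h5 ((τ : Perm M).injective h))
      (fun h => h6 ((τ : Perm M).injective h)) (fun h => h7 ((τ : Perm M).injective h))]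
    rfl
  | inv x _ hx =>
    obtain ⟨σ, h1, h2⟩ := hx
    refine ⟨σ⁻¹, by rw [map_inv, map_inv, h1], fun p q r h5 h6 h7 => ?_⟩
    have e1 := h2 ((σ : Perm M)⁻¹ p) ((σ : Perm M)⁻¹ q) ((σ : Perm M)⁻¹ r)
      (fun h => h5 ((σ : Perm M)⁻¹.injective h)) (fun h => h6 ((σ : Perm M)⁻¹.injective h))
      (fun h => h7 ((σ : Perm M)⁻¹.injective h))
    have e : ∀ x, (σ : Perm M) ((σ : Perm M)⁻¹ x) = x := fun x => Equiv.apply_symm_apply _ x
    simp only [e] at e1
    rw [← e1, Subgroup.coe_inv, inv_inv]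
    simp only [mul_assoc, inv_mul_cancel_left, inv_mul_cancel, mul_one]

/-- Kernel elements of the group generated by the `T a b c` commute with it. -/
theorem ConjFamily.commute_of_map_eq_one {T : M → M → M → E} (hT : ConjFamily T) (π : E →* Q)
    (j : alternatingGroup M →* Q) (hj : Function.Injective j)
    (hπ : ∀ a b c, a ≠ b → a ≠ c → b ≠ c → π (T a b c) = j (C a b c))
    {g : E} (hg : g ∈ closure (tset T)) (hg1 : π g = 1) {h : E} (hh : h ∈ closure (tset T)) :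
    h * g = g * h := by
  obtain ⟨σ, h1, h2⟩ := hT.conj_of_mem π j hπ hg
  have hσ : σ = 1 := hj (by rw [← h1, hg1, map_one])
  subst hσ
  induction hh using closure_induction with
  | mem x hx =>
    obtain ⟨a, b, c, h3, h4, h5, rfl⟩ := hx
    have := h2 a b c h3 h4 h5
    rw [mul_inv_eq_iff_eq_mul] at this
    exact this.symm
  | one => rw [one_mul, mul_one]
  | mul x y _ _ hx hy => rw [mul_assoc, hy, ← mul_assoc, hx, mul_assoc]
  | inv x _ hx =>
    rw [inv_mul_eq_iff_eq_mul, ← mul_assoc, hx, mul_assoc, mul_inv_cancel, mul_one]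

/-- The group generated by a conjugation-covariant family of lifts of the 3-cycles of
`Alt M`, `6 ≤ |M|`, is a central extension of `Alt M` with kernel of exponent `2` generated by
`z₁ = T³` and `z₂ = (T(abi) T(abj))²`. -/
theorem ConjFamily.kernel {T : M → M → M → E} (hT : ConjFamily T) (hM : 6 ≤ Fintype.card M)
    (π : E →* Q) (j : alternatingGroup M →* Q) (hj : Function.Injective j)
    (hπ : ∀ a b c, a ≠ b → a ≠ c → b ≠ c → π (T a b c) = j (C a b c)) :
    ∃ z₁ z₂ : E, z₁ ∈ closure (tset T) ∧ z₂ ∈ closure (tset T) ∧ z₁ * z₁ = 1 ∧ z₂ * z₂ = 1 ∧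
      (∀ h ∈ closure (tset T), h * z₁ = z₁ * h) ∧ (∀ h ∈ closure (tset T), h * z₂ = z₂ * h) ∧
      (∀ a b c, a ≠ b → a ≠ c → b ≠ c → T a b c ^ 3 = z₁) ∧
      (∀ a b c d, a ≠ b → a ≠ c → a ≠ d → b ≠ c → b ≠ d → c ≠ d →
        (T a b c * T a b d) ^ 2 = z₂) ∧
      ∀ g ∈ closure (tset T), π g = 1 → g = 1 ∨ g = z₁ ∨ g = z₂ ∨ g = z₁ * z₂ := by
  classical
  set S := closure (tset T) with hS
  have hmem : ∀ a b c, a ≠ b → a ≠ c → b ≠ c → T a b c ∈ S := fun a b c h1 h2 h3 =>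
    subset_closure ⟨a, b, c, h1, h2, h3, rfl⟩
  obtain ⟨x, hx⟩ : ∃ x : Fin 4 → M, Function.Injective x :=
    ⟨_, ((Fintype.equivFin M).symm.injective.comp
      (Fin.castLE_injective (show 4 ≤ Fintype.card M by omega)))⟩
  obtain ⟨a, ha⟩ : ∃ a, a = x 0 := ⟨_, rfl⟩
  obtain ⟨b, hb⟩ : ∃ b, b = x 1 := ⟨_, rfl⟩
  obtain ⟨c, hc⟩ : ∃ c, c = x 2 := ⟨_, rfl⟩
  obtain ⟨d, hd⟩ : ∃ d, d = x 3 := ⟨_, rfl⟩
  have hab : a ≠ b := by rw [ha, hb]; exact fun h => absurd (hx h) (by decide)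
  have hac : a ≠ c := by rw [ha, hc]; exact fun h => absurd (hx h) (by decide)
  have had : a ≠ d := by rw [ha, hd]; exact fun h => absurd (hx h) (by decide)
  have hbc : b ≠ c := by rw [hb, hc]; exact fun h => absurd (hx h) (by decide)
  have hbd : b ≠ d := by rw [hb, hd]; exact fun h => absurd (hx h) (by decide)
  have hcd : c ≠ d := by rw [hc, hd]; exact fun h => absurd (hx h) (by decide)
  -- the star subgroup
  set K := closure ((fun i => T a b i) '' {i | i ≠ a ∧ i ≠ b}) with hK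
  have hKS : K ≤ S := by
    rw [hK, closure_le]
    rintro _ ⟨i, ⟨h1, h2⟩, rfl⟩
    exact hmem a b i hab h1.symm h2.symm
  have hreal0 : ∀ k ∈ closure ((fun i => c3 a b i) '' {i | i ≠ a ∧ i ≠ b}),
      ∃ g ∈ K, ∃ hk : k ∈ alternatingGroup M, π g = j ⟨k, hk⟩ := by
    intro k hk
    induction hk using closure_induction with
    | mem y hy =>
      obtain ⟨i, ⟨h1, h2⟩, rfl⟩ := hy
      refine ⟨T a b i, subset_closure ⟨i, ⟨h1, h2⟩, rfl⟩, c3_mem hab h2.symm, ?_⟩
      rw [hπ a b i hab h1.symm h2.symm, C, dif_pos ⟨hab, h2.symm⟩]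
    | one => exact ⟨1, one_mem _, one_mem _, by rw [map_one]; exact (map_one j).symm⟩
    | mul y z _ _ hy hz =>
      obtain ⟨g, hg, h1, h1'⟩ := hy
      obtain ⟨g', hg', h2, h2'⟩ := hz
      exact ⟨g * g', mul_mem hg hg', mul_mem h1 h2, by rw [map_mul, h1', h2', ← map_mul]; rfl⟩
    | inv y _ hy =>
      obtain ⟨g, hg, h1, h1'⟩ := hy
      exact ⟨g⁻¹, inv_mem hg, inv_mem h1, by rw [map_inv, h1', ← map_inv]; rfl⟩
  have hreal : ∀ σ : alternatingGroup M, ∃ g ∈ K, π g = j σ ∧ ∀ p q r, p ≠ q → p ≠ r → q ≠ r →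
      g * T p q r * g⁻¹ = T ((σ : Perm M) p) ((σ : Perm M) q) ((σ : Perm M) r) := by
    intro σ
    obtain ⟨g, hg, hk, he⟩ := hreal0 σ (by rw [closure_c3 hab]; exact σ.2)
    refine ⟨g, hg, he, ?_⟩
    obtain ⟨τ, h1, h2⟩ := hT.conj_of_mem π j hπ (hKS hg)
    have : τ = σ := hj (by rw [← h1, he])
    subst this
    exact h2
  have hcomm : ∀ g ∈ S, π g = 1 → ∀ h ∈ S, h * g = g * h := fun g hg hg1 h hh =>
    hT.commute_of_map_eq_one π j hj hπ hg hg1 hh
  -- all `T p q r` lie in `K`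
  have hTK : ∀ p q r, p ≠ q → p ≠ r → q ≠ r → T p q r ∈ K := by
    intro p q r h1 h2 h3
    obtain ⟨σ, e1, e2, e3⟩ := exists_alt_map3 (by omega) hab hac hbc h1 h2 h3
    obtain ⟨g, hg, -, he⟩ := hreal σ
    have := he a b c hab hac hbc
    rw [e1, e2, e3] at this
    rw [← this]
    exact mul_mem (mul_mem hg (subset_closure ⟨c, ⟨hac.symm, hbc.symm⟩, rfl⟩)) (inv_mem hg)
  -- `z₁`
  have hz1π : ∀ p q r, p ≠ q → p ≠ r → q ≠ r → π (T p q r ^ 3) = 1 := by
    intro p q r h1 h2 h3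
    rw [map_pow, hπ p q r h1 h2 h3, ← map_pow, C_pow_three h1 h2 h3, map_one]
  have hz1 : ∀ p q r, p ≠ q → p ≠ r → q ≠ r → T p q r ^ 3 = T a b c ^ 3 := by
    intro p q r h1 h2 h3
    obtain ⟨σ, e1, e2, e3⟩ := exists_alt_map3 (by omega) hab hac hbc h1 h2 h3
    obtain ⟨g, hg, -, he⟩ := hreal σ
    have h := he a b c hab hac hbc
    rw [e1, e2, e3] at h
    rw [← h, conj_pow, hcomm _ (pow_mem (hmem a b c hab hac hbc) 3) (hz1π a b c hab hac hbc) g
      (hKS hg), mul_inv_cancel_right]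
  -- `z₂`
  have hz2π : ∀ p q r s, p ≠ q → p ≠ r → p ≠ s → q ≠ r → q ≠ s → r ≠ s →
      π ((T p q r * T p q s) ^ 2) = 1 := by
    intro p q r s h1 h2 h3 h4 h5 h6
    rw [map_pow, map_mul, hπ p q r h1 h2 h4, hπ p q s h1 h3 h5, ← map_mul, ← map_pow]
    have : (C p q r * C p q s) ^ 2 = 1 := Subtype.ext (by
      rw [Subgroup.coe_pow, Subgroup.coe_mul, coe_C h1 h4, coe_C h1 h5,
        c3_mul_sq h1 h2.symm h4.symm h3.symm h5.symm h6]; rfl)
    rw [this, map_one]
  have hz2 : ∀ p q r s, p ≠ q → p ≠ r → p ≠ s → q ≠ r → q ≠ s → r ≠ s →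
      (T p q r * T p q s) ^ 2 = (T a b c * T a b d) ^ 2 := by
    intro p q r s h1 h2 h3 h4 h5 h6
    obtain ⟨σ, e1, e2, e3, e4⟩ :=
      exists_alt_map4 hM hab hac had hbc hbd hcd h1 h2 h3 h4 h5 h6
    obtain ⟨g, hg, -, he⟩ := hreal σ
    have h := he a b c hab hac hbc
    have h' := he a b d hab had hbd
    rw [e1, e2, e3] at h
    rw [e1, e2, e4] at h'
    have h'' : g * (T a b c * T a b d) * g⁻¹ = T p q r * T p q s := by
      rw [← h, ← h']; simp only [mul_assoc, inv_mul_cancel_left]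
    rw [← h'', conj_pow, hcomm _ (pow_mem (mul_mem (hmem a b c hab hac hbc)
      (hmem a b d hab had hbd)) 2) (hz2π a b c d hab hac had hbc hbd hcd) g (hKS hg),
      mul_inv_cancel_right]
  set z₁ := T a b c ^ 3 with hz₁
  set z₂ := (T a b c * T a b d) ^ 2 with hz₂
  have z1S : z₁ ∈ S := pow_mem (hmem a b c hab hac hbc) 3
  have z2S : z₂ ∈ S := pow_mem (mul_mem (hmem a b c hab hac hbc) (hmem a b d hab had hbd)) 2
  have z1c : ∀ h ∈ S, h * z₁ = z₁ * h := hcomm _ z1S (hz1π a b c hab hac hbc)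
  have z2c : ∀ h ∈ S, h * z₂ = z₂ * h := hcomm _ z2S (hz2π a b c d hab hac had hbc hbd hcd)
  have z1sq : z₁ * z₁ = 1 := by
    have h1 := hz1 a c b hac hab hbc.symm
    rw [hT.inv a b c hab hac hbc, inv_pow] at h1
    rw [mul_eq_one_iff_eq_inv, hz₁]
    exact h1.symm
  have z2sq : z₂ * z₂ = 1 := by
    have h1 := hz2 b a d c hab.symm hbd hbc had hac hcd.symm
    have e1 : T b a d = (T a b d)⁻¹ := by
      rw [← hT.inv a b d hab had hbd, ← hT.cyc a d b had hab hbd.symm,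
        ← hT.cyc d b a hbd.symm had.symm hab.symm]
    have e2 : T b a c = (T a b c)⁻¹ := by
      rw [← hT.inv a b c hab hac hbc, ← hT.cyc a c b hac hab hbc.symm,
        ← hT.cyc c b a hbc.symm hac.symm hab.symm]
    rw [e1, e2, ← mul_inv_rev, inv_pow] at h1
    rw [mul_eq_one_iff_eq_inv, hz₂]
    exact h1.symm
  have z12 : z₂ * z₁ = z₁ * z₂ := z1c z₂ z2S
  refine ⟨z₁, z₂, z1S, z2S, z1sq, z2sq, z1c, z2c, hz1, hz2, ?_⟩
  -- the homomorphism `S →* Perm M`
  have hσ : ∀ g : S, ∃ σ : alternatingGroup M, π g = j σ := fun g => by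
    obtain ⟨σ, h, -⟩ := hT.conj_of_mem π j hπ g.2
    exact ⟨σ, h⟩
  choose φ hφ using hσ
  let π' : S →* Perm M :=
    { toFun := fun g => (φ g : Perm M)
      map_one' := by
        have : φ 1 = 1 := hj (by rw [← hφ, map_one]; exact map_one π)
        rw [this]; rfl
      map_mul' := fun g h => by
        have : φ (g * h) = φ g * φ h := hj (by
          rw [← hφ, map_mul, ← hφ, ← hφ]; exact map_mul π _ _)
        rw [this]; rfl }
  have hπ'1 : ∀ g : S, π g = 1 → π' g = 1 := fun g hg => by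
    have : φ g = 1 := hj (by rw [← hφ, hg, map_one])
    show (φ g : Perm M) = 1
    rw [this]; rfl
  -- the kernel
  let N : Subgroup S :=
    { carrier := {g | (g : E) = 1 ∨ (g : E) = z₁ ∨ (g : E) = z₂ ∨ (g : E) = z₁ * z₂}
      one_mem' := Or.inl rfl
      mul_mem' := by
        have r1 : z₁ * (z₁ * z₂) = z₂ := by rw [← mul_assoc, z1sq, one_mul]
        have r2 : z₂ * (z₁ * z₂) = z₁ := by rw [← mul_assoc, z12, mul_assoc, z2sq, mul_one]
        have r3 : z₁ * z₂ * z₁ = z₂ := by rw [mul_assoc, z12, r1]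
        have r4 : z₁ * z₂ * z₂ = z₁ := by rw [mul_assoc, z2sq, mul_one]
        have r5 : z₁ * z₂ * (z₁ * z₂) = 1 := by rw [← mul_assoc, r3, z2sq]
        rintro ⟨g, hg⟩ ⟨h, hh⟩ h1 h2
        change g = 1 ∨ g = z₁ ∨ g = z₂ ∨ g = z₁ * z₂ at h1
        change h = 1 ∨ h = z₁ ∨ h = z₂ ∨ h = z₁ * z₂ at h2
        change g * h = 1 ∨ g * h = z₁ ∨ g * h = z₂ ∨ g * h = z₁ * z₂
        rcases h1 with h1 | h1 | h1 | h1 <;> rcases h2 with h2 | h2 | h2 | h2 <;>
          rw [h1, h2] <;> simp only [one_mul, mul_one, z1sq, z2sq, r1, r2, r3, r4, r5, z12,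
            true_or, or_true]
      inv_mem' := by
        have r5 : (z₁ * z₂)⁻¹ = z₁ * z₂ := by
          rw [mul_inv_rev, ← mul_eq_one_iff_eq_inv.1 z1sq, ← mul_eq_one_iff_eq_inv.1 z2sq, z12]
        rintro ⟨g, hg⟩ h1
        change g = 1 ∨ g = z₁ ∨ g = z₂ ∨ g = z₁ * z₂ at h1
        change g⁻¹ = 1 ∨ g⁻¹ = z₁ ∨ g⁻¹ = z₂ ∨ g⁻¹ = z₁ * z₂
        rcases h1 with h1 | h1 | h1 | h1 <;> rw [h1]
        · left; exact inv_one
        · right; left; exact (mul_eq_one_iff_eq_inv.1 z1sq).symm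
        · right; right; left; exact (mul_eq_one_iff_eq_inv.1 z2sq).symm
        · right; right; right; exact r5 }
  have hNc : ∀ n ∈ N, ∀ h : S, h * n = n * h := by
    rintro ⟨n, hn⟩ h1 ⟨h, hh⟩
    change n = 1 ∨ n = z₁ ∨ n = z₂ ∨ n = z₁ * z₂ at h1
    apply Subtype.ext
    change h * n = n * h
    rcases h1 with h1 | h1 | h1 | h1 <;> rw [h1]
    · rw [mul_one, one_mul]
    · exact z1c h hh
    · exact z2c h hh
    · rw [← mul_assoc, z1c h hh, mul_assoc, z2c h hh, mul_assoc]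
  have : N.Normal := ⟨fun n hn g => by
    rw [hNc n hn g, mul_inv_cancel_right]; exact hn⟩
  let y : M → S := fun i => if h : i ≠ a ∧ i ≠ b then
    ⟨T a b i, hmem a b i hab h.1.symm h.2.symm⟩ else 1
  have hy : ∀ i, i ≠ a → i ≠ b → (y i : E) = T a b i := by
    intro i h1 h2
    simp only [y]
    rw [dif_pos ⟨h1, h2⟩]
  have hN1 : N ≤ π'.ker := by
    rintro ⟨n, hn⟩ h1
    rw [MonoidHom.mem_ker]
    apply hπ'1
    change n = 1 ∨ n = z₁ ∨ n = z₂ ∨ n = z₁ * z₂ at h1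
    change π n = 1
    rcases h1 with h1 | h1 | h1 | h1 <;> rw [h1]
    · exact map_one π
    · exact hz1π a b c hab hac hbc
    · exact hz2π a b c d hab hac had hbc hbd hcd
    · rw [map_mul, hz1π a b c hab hac hbc, hz2π a b c d hab hac had hbc hbd hcd, mul_one]
  intro g hg hg1
  have hgK : g ∈ K := by
    have : S ≤ K := by
      rw [hS, closure_le]
      rintro _ ⟨p, q, r, h1, h2, h3, rfl⟩
      exact hTK p q r h1 h2 h3
    exact this hg
  have hgy : (⟨g, hg⟩ : S) ∈ closure (y '' {i | i ≠ a ∧ i ≠ b}) := by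
    have h1 : (closure (y '' {i | i ≠ a ∧ i ≠ b})).map S.subtype = K := by
      rw [MonoidHom.map_closure, hK]
      congr 1
      ext e
      constructor
      · rintro ⟨_, ⟨i, hi, rfl⟩, rfl⟩; exact ⟨i, hi, (hy i hi.1 hi.2).symm⟩
      · rintro ⟨i, hi, rfl⟩; exact ⟨_, ⟨i, hi, rfl⟩, hy i hi.1 hi.2⟩
    rw [← h1] at hgK
    obtain ⟨g', hg', he⟩ := hgK
    have : g' = ⟨g, hg⟩ := Subtype.ext he
    rw [← this]; exact hg'
  have := mem_of_map_eq_one hab y N π' hN1
    (fun i h1 h2 => by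
      show (φ (y i) : Perm M) = c3 a b i
      have : φ (y i) = C a b i := hj (by
        rw [← hφ, hy i h1 h2, hπ a b i hab h1.symm h2.symm])
      rw [this, coe_C hab h2.symm])
    (fun i h1 h2 => by
      right; left
      show ((y i : S) : E) ^ 3 = z₁
      rw [hy i h1 h2]; exact hz1 a b i hab h1.symm h2.symm)
    (fun i k h1 h2 h3 h4 h5 => by
      right; right; left
      show (((y i : S) : E) * (y k : E)) ^ 2 = z₂
      rw [hy i h1 h2, hy k h3 h4]
      exact hz2 a b i k hab h1.symm h3.symm h2.symm h4.symm h5)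
    (mem_sup_left hgy) (hπ'1 _ hg1)
  exact this

end Vale.Agent.P196.H798
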